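import Vale.Agent.P153.R2.TOP.Sep

/-!
# P167, SLE_6, block FJORD, part A: the phase function of a separating ball

Let `A` be compact, not separating `f` from `b`, and let `B` be closed in a region `B'` with
logarithms such that `A ∪ B` separates `f` from `b`. The phase `κ` of `A ∩ B'` (difference of the
logarithm of `(z - f) / (z - b)` on `A` and on `B'`) is constant on connected subsets, is not
constant on `A ∩ B`, and a difference of the phases of two points of `A` which are joined in `B'`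
gives a separation of `f` from `b`.
-/

open Set Topology Metric

namespace Vale.Agent.P167.S6

open P153.TOP

/-- Gluing of two logarithms which differ by a constant on the intersection. -/
theorem logOn_glue {X : Type*} [TopologicalSpace X] {A B : Set X} (hA : IsClosed A)
    (hB : IsClosed B) {h : X → ℂ} {F G : X → ℂ} {c : ℂ} (hF : ContinuousOn F A)
    (hF' : ∀ x ∈ A, Complex.exp (F x) = h x) (hG : ContinuousOn G B)
    (hG' : ∀ x ∈ B, Complex.exp (G x) = h x) (hc : Complex.exp c = 1)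
    (hFG : ∀ x ∈ A ∩ B, F x = G x + c) : LogOn (A ∪ B) h := by
  classical
  refine ⟨A.piecewise F (fun x => G x + c), ?_, ?_⟩
  · refine ContinuousOn.union_of_isClosed ?_ ?_ hA hB
    · exact hF.congr fun x hx => Set.piecewise_eq_of_mem _ _ _ hx
    · refine (hG.add (continuousOn_const (c := c))).congr fun x hx => ?_
      by_cases hxA : x ∈ A
      · rw [Set.piecewise_eq_of_mem _ _ _ hxA, hFG x ⟨hxA, hx⟩]; rfl
      · rw [Set.piecewise_eq_of_notMem _ _ _ hxA]; rfl
  · intro x hx
    by_cases hxA : x ∈ A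
    · rw [Set.piecewise_eq_of_mem _ _ _ hxA, hF' x hxA]
    · rw [Set.piecewise_eq_of_notMem _ _ _ hxA, Complex.exp_add, hc, mul_one,
        hG' x (hx.resolve_left hxA)]

theorem logOn_frac {K : Set ℂ} (hK : HasLogOn K) {f b : ℂ} (hf : f ∉ K) (hb : b ∉ K) :
    LogOn K (fun z => (z - f) / (z - b)) := by
  refine hK _ ?_ ?_
  · refine (continuousOn_id.sub continuousOn_const).div
      (continuousOn_id.sub continuousOn_const) fun z hz h0 => hb ?_
    rw [← sub_eq_zero.1 h0]
    exact hz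
  · intro z hz
    refine div_ne_zero (fun h0 => hf ?_) (fun h0 => hb ?_)
    · rw [← sub_eq_zero.1 h0]; exact hz
    · rw [← sub_eq_zero.1 h0]; exact hz

/-- **The phase function.** -/
theorem kappa {A B B' : Set ℂ} (hA : IsCompact A) (hB : IsCompact B) (hBB' : B ⊆ B')
    (hB' : HasLogOn B') {f b : ℂ} (hf : f ∉ B') (hb : b ∉ B') (hj : JoinedIn Aᶜ f b)
    (hsep : ¬ JoinedIn (A ∪ B)ᶜ f b) : ∃ κ : ℂ → ℤ,
      (∀ G ⊆ A ∩ B', IsPreconnected G → ∀ x ∈ G, ∀ y ∈ G, κ x = κ y) ∧
      (∀ x ∈ A ∩ B', ∀ y ∈ A ∩ B', κ x ≠ κ y → ∀ G ⊆ A, IsPreconnected G → x ∈ G → y ∈ G →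
        ∀ C' ⊆ B', IsPreconnected C' → x ∈ C' → y ∈ C' → IsClosed (G ∪ C') →
          ¬ JoinedIn (G ∪ C')ᶜ f b) ∧
      (∃ x ∈ A ∩ B, ∃ y ∈ A ∩ B, κ x ≠ κ y) := by
  classical
  have hfA : f ∉ A := hj.mem.1
  have hbA : b ∉ A := hj.mem.2
  obtain ⟨L, hL, hL'⟩ := logOn_of_joinedIn hA.isClosed hj
  obtain ⟨M, hM, hM'⟩ := logOn_frac hB' hf hb
  have hpi : (2 * Real.pi * Complex.I : ℂ) ≠ 0 := Complex.two_pi_I_ne_zero
  have hex : ∀ x, ∃ n : ℤ, x ∈ A ∩ B' → L x - M x = n * (2 * Real.pi * Complex.I) := by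
    intro x
    by_cases hx : x ∈ A ∩ B'
    · obtain ⟨n, hn⟩ := Complex.exp_eq_exp_iff_exists_int.1 ((hL' x hx.1).trans (hM' x hx.2).symm)
      exact ⟨n, fun _ => by rw [hn]; ring⟩
    · exact ⟨0, fun h => absurd h hx⟩
  choose κ hκ using hex
  have key : ∀ x ∈ A ∩ B', ∀ y ∈ A ∩ B', L x - M x = L y - M y → κ x = κ y := by
    intro x hx y hy h
    rw [hκ x hx, hκ y hy] at h
    have := mul_right_cancel₀ hpi h
    exact_mod_cast this
  refine ⟨κ, ?_, ?_, ?_⟩
  · intro G hG hGc x hx y hy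
    refine key x (hG hx) y (hG hy) ?_
    exact log_diff_const hGc (hL.mono fun z hz => (hG hz).1) (hM.mono fun z hz => (hG hz).2)
      (fun z hz => by rw [hL' z (hG hz).1, hM' z (hG hz).2]) hx hy
  · intro x hx y hy hne G hGA hGc hxG hyG C' hC' hC'c hxC hyC hcl hcon
    apply hne
    obtain ⟨N, hN, hN'⟩ := logOn_of_joinedIn hcl hcon
    have h1 := log_diff_const hGc (hN.mono subset_union_left) (hL.mono hGA)
      (fun z hz => by rw [hN' z (Or.inl hz), hL' z (hGA hz)]) hxG hyG
    have h2 := log_diff_const hC'c (hN.mono subset_union_right) (hM.mono hC')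
      (fun z hz => by rw [hN' z (Or.inr hz), hM' z (hC' hz)]) hxC hyC
    refine key x hx y hy ?_
    linear_combination h2 - h1
  · by_contra hcon
    push Not at hcon
    apply hsep
    refine joinedIn_of_logOn (hA.union hB) (fun h => h.elim hfA fun h => hf (hBB' h))
      (fun h => h.elim hbA fun h => hb (hBB' h)) ?_
    rcases (A ∩ B).eq_empty_or_nonempty with he | ⟨x₀, hx₀⟩
    · exact logOn_glue hA.isClosed hB.isClosed hL hL' (hM.mono hBB') (fun x hx => hM' x (hBB' hx))
        (c := 0) Complex.exp_zero (fun x hx => by rw [he] at hx; exact hx.elim)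
    · refine logOn_glue hA.isClosed hB.isClosed hL hL' (hM.mono hBB')
        (fun x hx => hM' x (hBB' hx)) (c := κ x₀ * (2 * Real.pi * Complex.I))
        (Complex.exp_int_mul_two_pi_mul_I _) (fun x hx => ?_)
      rw [← hcon x hx x₀ hx₀, ← hκ x ⟨hx.1, hBB' hx.2⟩]
      ring

end Vale.Agent.P167.S6
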