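import Vale.Agent.P167.S6.Tip2
import Vale.Agent.P167.S6.Kap
import Vale.Agent.P167.H327.Geo6
import Vale.Agent.P167.E2.Om

/-!
# P167, SLE_6, block FJORD, parts B and C

* `fj_sep`: from the fjord event to a ball which, together with the boundary and the past of the
  curve, separates the points of the future of the curve from the target.
* `fj_lat`: the same for the corner curve of the lattice, at lattice times.
* `joined_Om`: boundary and past of the corner curve do not separate.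
* `ctrl_Om`: uniform local connectivity of the boundaries of the lattice domains.
-/

open Set Topology Metric Filter Bornology

namespace Vale.Agent.P167.S6

open P153.TOP
open Vale.Agent.P167.E6 Vale.Agent.P167.E2 Vale.Agent.P167.H327
open Vale.Agent.P153.R2.R1 (LC Ctrl JCurve FC)
open Vale.Agent.P153.R2.Final (dom circ toC)

/-- A connected set which meets an open set and does not meet its frontier is inside. -/
theorem subset_of_frontier {D G : Set ℂ} (hD : IsOpen D) (hG : IsPreconnected G)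
    (hne : (G ∩ D).Nonempty) (hd : Disjoint G (frontier D)) : G ⊆ D := by
  refine hG.subset_left_of_subset_union hD (isClosed_closure (s := D)).isOpen_compl ?_ ?_ hne
  · rw [Set.disjoint_left]
    exact fun x hx hx' => hx' (subset_closure hx)
  · intro x hx
    by_cases h : x ∈ closure D
    · left
      by_contra hxD
      refine Set.disjoint_left.1 hd hx ?_
      rw [hD.frontier_eq]
      exact ⟨h, hxD⟩
    · exact Or.inr h

/-- **From the fjord event to a separating ball.** -/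
theorem fj_sep {D : Set ℂ} {bn : ℂ} {X : C(unitInterval, ℂ)} {T ρ e r₁ : ℝ} (hD : IsOpen D)
    (h : FJR D bn X T ρ e r₁) : ∃ (s t : unitInterval) (x₀ : ℂ), s ≤ t ∧ (t : ℝ) < T ∧
      e ≤ dist (X s) (X t) ∧ x₀ ∈ D ∧ r₁ ≤ dist x₀ bn ∧
      (∀ u ∈ Ioc s t, X u ∈ D) ∧
      ∀ u ∈ Ioc s t, ∀ b ∈ D \ X '' Icc 0 s, dist b bn < r₁ →
        ¬ JoinedIn (frontier D ∪ X '' Icc 0 s ∪ closedBall x₀ ρ)ᶜ (X u) b := by
  obtain ⟨s, t, hst, htT, he, U, V, C, hC, hU, hV⟩ := h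
  have h2 : (1 / 2 : ℝ) ∈ Ioo (0 : ℝ) 1 := by constructor <;> norm_num
  have hx0 := hC.mem _ h2
  have hUD : U ⊆ D \ X '' Icc 0 s := by
    rw [hC.cover]
    exact fun z hz => Or.inl (Or.inl hz)
  refine ⟨s, t, C (1 / 2), hst, htT, he, hx0.1, ?_, fun u hu => (hUD (hU u hu)).1, ?_⟩
  · by_contra hcon
    push Not at hcon
    exact Set.disjoint_left.1 hC.disjV (hV _ hx0 hcon) ⟨_, h2, rfl⟩
  · rintro u hu b hb hbn ⟨γ, hγ⟩
    have hpre : IsPreconnected (range γ) := isPreconnected_range γ.continuous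
    have hγD : range γ ⊆ D := by
      refine subset_of_frontier hD hpre ⟨b, ⟨1, γ.target⟩, hb.1⟩ ?_
      rw [Set.disjoint_left]
      rintro _ ⟨τ, rfl⟩ hf
      exact hγ τ (Or.inl (Or.inl hf))
    have hcov : range γ ⊆ U ∪ V := by
      rintro _ ⟨τ, rfl⟩
      have h1 : γ τ ∈ D \ X '' Icc 0 s := ⟨hγD ⟨τ, rfl⟩, fun h => hγ τ (Or.inl (Or.inr h))⟩
      rw [hC.cover] at h1
      rcases h1 with h1 | ⟨v, hv, h1⟩
      · exact h1
      · exfalso
        apply hγ τ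
        refine Or.inr ?_
        rw [← h1, mem_closedBall]
        exact hC.diam _ ⟨hv.1.le, hv.2.le⟩ _ ⟨h2.1.le, h2.2.le⟩
    have hsub := hpre.subset_left_of_subset_union hC.openU hC.openV hC.disj hcov
      ⟨X u, ⟨0, γ.source⟩, hU u hu⟩
    exact Set.disjoint_left.1 hC.disj (hsub ⟨1, γ.target⟩) (hV b hb hbn)

variable {n : ℕ} {p : ZMod n → ℤ × ℤ} {S : Finset (ℤ × ℤ)} {k : ℕ}
  {A : Finset (Sym2 (ℤ × ℤ))} {δ : ℝ}

theorem isCompact_frontier_Om (hδ : 0 < δ) : IsCompact (frontier (Om δ S)) :=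
  Metric.isCompact_of_isClosed_isBounded isClosed_frontier
    ((isBounded_Om hδ S).closure.subset frontier_subset_closure)

theorem notMem_frontier_Om (hδ : 0 < δ) {z : ℂ} (hz : z ∈ Om δ S) : z ∉ frontier (Om δ S) := by
  rw [(isOpen_Om hδ S).frontier_eq]
  exact fun h => h.2 hz

section

variable (hp : IsPolygon p) (hS : Encloses p S) (hk : k + 1 < n) (hA : A ⊆ edges S) (hδ : 0 < δ)
include hp hS hk hA hδ

/-- **The boundary and the past of the corner curve do not separate** the points of the domain. -/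
theorem joined_Om {s : ℝ} (hs0 : 0 ≤ s) (hs : s < nu p k A) {f b : ℂ}
    (hf : f ∈ Om δ S) (hf' : f ∉ E2.pl p k δ A '' Icc 0 s) (hb : b ∈ Om δ S)
    (hb' : b ∉ E2.pl p k δ A '' Icc 0 s) :
    JoinedIn (frontier (Om δ S) ∪ E2.pl p k δ A '' Icc 0 s)ᶜ f b := by
  have hcont : ContinuousOn (E2.pl p k δ A) (Icc 0 s) := (continuous_pl δ).continuousOn
  have hinj : InjOn (E2.pl p k δ A) (Icc 0 s) :=
    (pl_injOn hp hS hk hA hδ).mono (Icc_subset_Icc_right hs.le)
  have hconn := (good_Om6 hδ hp hS).rdom.conn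
  refine janiszewski (isCompact_frontier_Om hδ) (isCompact_Icc.image_of_continuousOn hcont) ?_ ?_ ?_
  · have : frontier (Om δ S) ∩ E2.pl p k δ A '' Icc 0 s ⊆ {E2.pl p k δ A 0} := by
      rintro z ⟨hz, t, ht, rfl⟩
      rcases ht.1.eq_or_lt with h | h
      · rw [← h]; rfl
      · exact absurd hz (notMem_frontier_Om hδ (pl_mem_Om hp hS (by omega) hA hδ h
          (ht.2.trans_lt hs)))
    exact (subsingleton_singleton.anti this).isPreconnected
  · refine joinedIn_of_preconnected isClosed_frontier.isOpen_compl hconn.isPreconnected ?_ hf hb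
    exact fun z hz => notMem_frontier_Om hδ hz
  · exact joinedIn_of_hasLogOn (isCompact_Icc.image_of_continuousOn hcont) (hasLogOn_arc hcont hinj)
      hf' hb'

/-- **The fjord event of the corner curve, at lattice times.** -/
theorem fj_lat {ρ e r₁ : ℝ} (he : 8 * δ ≤ e)
    (h : FJR (Om δ S) (bM p k δ) (Xc p k δ A) 1 ρ e r₁) :
    ∃ (i j : ℕ) (τ : ℝ) (x₀ : ℂ), i < j ∧ (j : ℝ) + 1 ≤ τ ∧ τ < nu p k A ∧ x₀ ∈ Om δ S ∧
      r₁ ≤ dist x₀ (bM p k δ) ∧ e / 4 ≤ dist (E2.pl p k δ A j) x₀ ∧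
      ∀ u ∈ Ioc (i : ℝ) τ, ∀ b ∈ Om δ S, dist b (bM p k δ) < r₁ → b ∉ E2.pl p k δ A '' Icc 0 (i : ℝ) →
        JoinedIn (frontier (Om δ S) ∪ E2.pl p k δ A '' Icc 0 (i : ℝ))ᶜ (E2.pl p k δ A u) b ∧
        ¬ JoinedIn (frontier (Om δ S) ∪ E2.pl p k δ A '' Icc 0 (i : ℝ) ∪ closedBall x₀ ρ)ᶜ
          (E2.pl p k δ A u) b := by
  obtain ⟨s, t, x₀, hst, ht1, hdist, hx0, hx0b, hin, hsep⟩ := fj_sep (isOpen_Om hδ S) h
  have hs0 : (0 : ℝ) ≤ s := s.2.1
  have hst' : (s : ℝ) ≤ t := hst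
  set ν : ℝ := (nu p k A : ℝ) with hν
  have hνpos : 0 < ν := by
    rw [hν]
    have : 0 < nu p k A := by unfold nu; omega
    exact_mod_cast this
  have hstep := @lin_lip (xv p k A) (nu p k A) (1 / 2) (xv_step hp hS (by omega) hA)
  -- speed of the curve
  have hspeed : ∀ x y : ℝ, 0 ≤ x → x ≤ y → y ≤ ν →
      dist (E2.pl p k δ A x) (E2.pl p k δ A y) ≤ δ / 2 * (y - x) := by
    intro x y hx hxy hy
    have h1 := hstep hx hxy hy
    unfold E2.pl
    rw [dist_eq_norm, ← mul_sub, norm_mul, Complex.norm_real, Real.norm_of_nonneg hδ.le,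
      norm_sub_rev]
    nlinarith
  have hXs : Xc p k δ A s = E2.pl p k δ A (s * ν) := rfl
  have hXt : Xc p k δ A t = E2.pl p k δ A (t * ν) := rfl
  rw [hXs, hXt] at hdist
  have hsν : 0 ≤ s * ν := by positivity
  have htν : t * ν < ν := by nlinarith
  have hstν : s * ν ≤ t * ν := by nlinarith
  set i : ℕ := ⌈s * ν⌉₊ with hi
  have hi1 : s * ν ≤ i := Nat.le_ceil _
  have hi2 : (i : ℝ) < s * ν + 1 := Nat.ceil_lt_add_one hsν
  set m : ℕ := ⌊t * ν⌋₊ with hm
  have hm1 : (m : ℝ) ≤ t * ν := Nat.floor_le (by linarith)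
  have hm2 : t * ν < m + 1 := Nat.lt_floor_add_one _
  -- the curve moves far, so there are many steps
  have hlong : s * ν + 16 ≤ t * ν := by
    have h1 := hspeed _ _ hsν hstν htν.le
    have h2 : 8 * δ ≤ δ / 2 * (t * ν - s * ν) := he.trans (hdist.trans h1)
    nlinarith
  have him : i + 2 ≤ m := by
    have : (i : ℝ) + 2 < m + 1 := by linarith
    have h2 : i + 2 < m + 1 := by exact_mod_cast this
    omega
  -- choice of `j`
  have him' : (i : ℝ) + 2 ≤ m := by exact_mod_cast him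
  obtain ⟨j, hj1, hj2, hj3⟩ : ∃ j : ℕ, i < j ∧ (j : ℝ) + 1 ≤ t * ν ∧
      e / 4 ≤ dist (E2.pl p k δ A j) x₀ := by
    rcases le_total (e / 2) (dist (E2.pl p k δ A (t * ν)) x₀) with h1 | h1
    · have e1 : ((m - 1 : ℕ) : ℝ) = m - 1 := by
        rw [Nat.cast_sub (by omega)]
        simp
      refine ⟨m - 1, by omega, by rw [e1]; linarith, ?_⟩
      have h2 := hspeed ((m - 1 : ℕ) : ℝ) (t * ν) (by positivity) (by rw [e1]; linarith) htν.le
      have h3 := dist_triangle (E2.pl p k δ A (t * ν)) (E2.pl p k δ A ((m - 1 : ℕ) : ℝ)) x₀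
      rw [dist_comm] at h2
      rw [e1] at h2 h3 ⊢
      nlinarith
    · refine ⟨i + 1, by omega, ?_, ?_⟩
      · push_cast
        linarith
      · have h4 : ((i + 1 : ℕ) : ℝ) ≤ ν := by
          push_cast
          linarith
        have h5 : s * ν ≤ ((i + 1 : ℕ) : ℝ) := by push_cast; linarith
        have h2 := hspeed (s * ν) ((i + 1 : ℕ) : ℝ) hsν h5 h4
        have h3 := dist_triangle (E2.pl p k δ A (s * ν)) (E2.pl p k δ A ((i + 1 : ℕ) : ℝ)) x₀
        have h6 := dist_triangle_right (E2.pl p k δ A (s * ν)) (E2.pl p k δ A (t * ν)) x₀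
        push_cast at h2 h3 h5 ⊢
        nlinarith
  refine ⟨i, j, t * ν, x₀, hj1, hj2, htν, hx0, hx0b, hj3, ?_⟩
  intro u hu b hb hbd hb'
  have hu0 : (0 : ℝ) < u := lt_of_le_of_lt (Nat.cast_nonneg i) hu.1
  have huν : u < ν := hu.2.trans_lt htν
  have hiν : (i : ℝ) < ν := hu.1.trans huν
  have hXI : Xc p k δ A '' Icc 0 s ⊆ E2.pl p k δ A '' Icc 0 (i : ℝ) := by
    rintro _ ⟨v, hv, rfl⟩
    refine ⟨v * ν, ⟨mul_nonneg v.2.1 hνpos.le, ?_⟩, rfl⟩
    have : (v : ℝ) ≤ s := hv.2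
    nlinarith
  have hun : E2.pl p k δ A u ∉ E2.pl p k δ A '' Icc 0 (i : ℝ) := by
    rintro ⟨v, hv, he⟩
    have := pl_injOn hp hS hk hA hδ ⟨hv.1, by linarith [hv.2]⟩ ⟨hu0.le, huν.le⟩ he
    linarith [hv.2, hu.1]
  refine ⟨joined_Om hp hS hk hA hδ (Nat.cast_nonneg i) hiν
    (pl_mem_Om hp hS (by omega) hA hδ hu0 huν) hun hb hb', ?_⟩
  intro hcon
  -- the parameter in `[0,1]`
  have hu1 : u / ν ∈ Icc (0 : ℝ) 1 := ⟨by positivity, (div_le_one hνpos).2 huν.le⟩
  have hXu : Xc p k δ A ⟨u / ν, hu1⟩ = E2.pl p k δ A u := by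
    rw [Xc_apply]
    congr 1
    rw [← hν]
    simp only
    field_simp
  refine hsep ⟨u / ν, hu1⟩ ⟨?_, ?_⟩ b ⟨hb, fun h => hb' (hXI h)⟩ hbd ?_
  · show (s : ℝ) < u / ν
    rw [lt_div_iff₀ hνpos]
    linarith [hu.1]
  · show u / ν ≤ (t : ℝ)
    rw [div_le_iff₀ hνpos]
    exact hu.2
  · rw [hXu]
    refine hcon.mono (compl_subset_compl.2 ?_)
    exact union_subset_union_left _ (union_subset_union_right _ hXI)

end

/-- **Uniform local connectivity** of the boundaries of the lattice domains. -/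
theorem ctrl_Om {Φ : (ℝ × ℝ) ≃ₜ (ℝ × ℝ)} {δn : ℕ → ℝ} {N k : ℕ → ℕ}
    {P : ∀ n, ZMod (N n) → ℤ × ℤ} {T : ℕ → Finset (ℤ × ℤ)} (h : Approx Φ δn N k P T) {ε : ℝ}
    (hε : 0 < ε) : ∃ η > 0, ∀ᶠ n in atTop, Ctrl (Om (δn n) (T n)) η ε := by
  obtain ⟨η, hη, ε₁, hε₁, hctrl⟩ := (Vale.Agent.P153.R2.R1.jcurve_FC Φ).ctrl hε
  refine ⟨η, hη, ?_⟩
  filter_upwards [approx_close6 h hε₁] with n ⟨σ, h1, h2, h3, h4, h5, h6⟩
  obtain ⟨hδ0, hk0, hkN, hp, hS⟩ := h.1 n
  have hj := jcurve_QF hδ0 hp hS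
  exact hctrl _ σ _ _ hj.pos hj.cont hj.per h1 h2 h3 h6 (frontier_Om hδ0 hp hS)

end Vale.Agent.P167.S6
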