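import Vale.Agent.P153.R2.R1.Wolff
import Vale.Agent.P153.R2.HULL.Bounds
import Mathlib.Analysis.Complex.OpenMapping
import Mathlib.Topology.Order.ExtendFrom

/-!
# P167, SLE_6, block NM1 (F1): short crosscuts from small capacity

* `ShortCut D U V C ρ`: the curve `C` on `[0,1]` is a crosscut of the domain `D`, of diameter at
  most `ρ`, with the two sides `U` and `V`.
* `exists_shortCut`: Wolff's lemma for conformal maps of the half-plane.
* `swallow_cut`: if between the capacity times `a ≤ b` the driver moves by at most `ε` and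
  `b - a ≤ ε ^ 2`, then a crosscut of diameter at most `ρ` of `ψ (H \ K_a)` separates everything
  which is swallowed between the times `a` and `b` from the target.
-/

open Set Topology Metric MeasureTheory Filter
open scoped ENNReal Real

namespace Vale.Agent.P167.S6

open Vale.Agent.P164 Vale.Agent.P153.R2.R1 Vale.Agent.P153.R2.HULL

/-- `C` on `[0,1]` is a crosscut of `D` of diameter at most `ρ` with the two sides `U` and `V`. -/
structure ShortCut (D U V : Set ℂ) (C : ℝ → ℂ) (ρ : ℝ) : Prop where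
  cont : ContinuousOn C (Icc 0 1)
  inj : InjOn C (Ioo 0 1)
  mem : ∀ t ∈ Ioo (0 : ℝ) 1, C t ∈ D
  left : C 0 ∉ D
  right : C 1 ∉ D
  diam : ∀ s ∈ Icc (0 : ℝ) 1, ∀ t ∈ Icc (0 : ℝ) 1, dist (C s) (C t) ≤ ρ
  openU : IsOpen U
  openV : IsOpen V
  connU : IsPreconnected U
  connV : IsPreconnected V
  neU : U.Nonempty
  neV : V.Nonempty
  disj : Disjoint U V
  disjU : Disjoint U (C '' Ioo 0 1)
  disjV : Disjoint V (C '' Ioo 0 1)
  cover : D = U ∪ V ∪ C '' Ioo 0 1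

/-! ### Conformal maps of the half-plane -/

section conf

variable {φ : ℂ → ℂ}

theorem isOpen_image_UH (hd : DifferentiableOn ℂ φ UH) (hi : InjOn φ UH) {O : Set ℂ}
    (hO : O ⊆ UH) (hOo : IsOpen O) : IsOpen (φ '' O) := by
  have ha : AnalyticOnNhd ℂ φ UH := hd.analyticOnNhd isOpen_UH
  rcases ha.is_constant_or_isOpen convex_UH.isPreconnected with ⟨w, hw⟩ | h'
  · exfalso
    have h0 : (Complex.I : ℂ) ∈ UH := by rw [mem_UH]; simp
    have h1 : (2 * Complex.I : ℂ) ∈ UH := by rw [mem_UH]; simp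
    have := hi h0 h1 (by rw [hw _ h0, hw _ h1])
    have h2 := congrArg Complex.im this
    simp at h2
  · exact h' O hO hOo

/-- Images of points tending to the real line do not tend to a point of the image. -/
theorem notMem_of_tendsto (hd : DifferentiableOn ℂ φ UH) (hi : InjOn φ UH) {ι : Type*}
    {l : Filter ι} [l.NeBot] {u : ι → ℂ} (hu : ∀ᶠ i in l, u i ∈ UH)
    (hu1 : Tendsto (fun i => (u i).im) l (𝓝 0)) {y : ℂ}
    (hy : Tendsto (fun i => φ (u i)) l (𝓝 y)) : y ∉ φ '' UH := by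
  rintro ⟨z, hz, rfl⟩
  have hz' : 0 < z.im := hz
  have hO : IsOpen {w : ℂ | z.im / 2 < w.im} := isOpen_lt continuous_const Complex.continuous_im
  have hsub : {w : ℂ | z.im / 2 < w.im} ⊆ UH := fun w hw => by
    have : z.im / 2 < w.im := hw
    rw [mem_UH]; linarith
  have hzm : z ∈ {w : ℂ | z.im / 2 < w.im} := by
    show z.im / 2 < z.im
    linarith
  have hnb : φ '' {w : ℂ | z.im / 2 < w.im} ∈ 𝓝 (φ z) :=
    (isOpen_image_UH hd hi hsub hO).mem_nhds ⟨z, hzm, rfl⟩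
  have h1 : ∀ᶠ i in l, φ (u i) ∈ φ '' {w : ℂ | z.im / 2 < w.im} := hy hnb
  have h2 : ∀ᶠ i in l, (u i).im < z.im / 2 := hu1.eventually (gt_mem_nhds (by linarith))
  obtain ⟨i, hi1, hi2, hi3⟩ := (hu.and (h1.and h2)).exists
  obtain ⟨z', hz', he⟩ := hi2
  have := hi (hsub hz') hi1 he
  rw [this] at hz'
  have : z.im / 2 < (u i).im := hz'
  linarith

/-- The half circle of radius `r` around `0`. -/
noncomputable def hc (r t : ℝ) : ℂ := r * Complex.exp ((π * t : ℝ) * Complex.I)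

theorem continuous_hc (r : ℝ) : Continuous (hc r) := by
  unfold hc; fun_prop

theorem hc_im (r t : ℝ) : (hc r t).im = r * Real.sin (π * t) := by
  rw [hc, Complex.im_ofReal_mul, Complex.exp_ofReal_mul_I_im]

theorem hc_re (r t : ℝ) : (hc r t).re = r * Real.cos (π * t) := by
  rw [hc, Complex.re_ofReal_mul, Complex.exp_ofReal_mul_I_re]

theorem norm_hc {r : ℝ} (hr : 0 < r) (t : ℝ) : ‖hc r t‖ = r := by
  rw [hc, norm_mul, Complex.norm_exp_ofReal_mul_I, Complex.norm_real, Real.norm_of_nonneg hr.le,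
    mul_one]

theorem hc_mem {r : ℝ} (hr : 0 < r) {t : ℝ} (ht : t ∈ Ioo (0 : ℝ) 1) : hc r t ∈ UH := by
  rw [mem_UH, hc_im]
  refine mul_pos hr (Real.sin_pos_of_pos_of_lt_pi (mul_pos Real.pi_pos ht.1) ?_)
  nlinarith [Real.pi_pos, ht.2]

theorem hc_injOn {r : ℝ} (hr : 0 < r) : InjOn (hc r) (Ioo 0 1) := by
  intro s hs t ht h
  have h1 := congrArg Complex.re h
  rw [hc_re, hc_re] at h1
  have h2 : Real.cos (π * s) = Real.cos (π * t) := mul_left_cancel₀ hr.ne' h1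
  have hmem : ∀ u ∈ Ioo (0 : ℝ) 1, π * u ∈ Icc 0 π := fun u hu =>
    ⟨(mul_pos Real.pi_pos hu.1).le, by nlinarith [Real.pi_pos, hu.2]⟩
  have h3 := Real.injOn_cos (hmem s hs) (hmem t ht) h2
  exact mul_left_cancel₀ Real.pi_pos.ne' h3

theorem exists_hc {r : ℝ} (hr : 0 < r) {w : ℂ} (hw : w ∈ UH) (hwr : ‖w‖ = r) :
    ∃ t ∈ Ioo (0 : ℝ) 1, hc r t = w := by
  have hw' : 0 < w.im := hw
  refine ⟨Complex.arg w / π, ⟨?_, ?_⟩, ?_⟩
  · apply div_pos _ Real.pi_pos
    refine lt_of_le_of_ne (Complex.arg_nonneg_iff.2 hw'.le) fun h => ?_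
    exact hw'.ne' (Complex.arg_eq_zero_iff.1 h.symm).2.symm.symm
  · rw [div_lt_one Real.pi_pos]
    refine lt_of_le_of_ne (Complex.arg_le_pi w) fun h => ?_
    exact hw'.ne' (Complex.arg_eq_pi_iff.1 h).2
  · have e : π * (Complex.arg w / π) = Complex.arg w := by
      field_simp
    rw [hc, e, ← hwr]
    exact Complex.norm_mul_exp_arg_mul_I w

theorem image_hc {r : ℝ} (hr : 0 < r) : hc r '' Ioo 0 1 = {w ∈ UH | ‖w‖ = r} := by
  ext w
  constructor
  · rintro ⟨t, ht, rfl⟩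
    exact ⟨hc_mem hr ht, norm_hc hr t⟩
  · rintro ⟨hw, hwr⟩
    obtain ⟨t, ht, e⟩ := exists_hc hr hw hwr
    exact ⟨t, ht, e⟩

/-- The length density along the half circle is integrable. -/
theorem dist_hc_le (hd : DifferentiableOn ℂ φ UH) {r : ℝ} (hr : 0 < r) {s t : ℝ}
    (hs : s ∈ Ioo (0 : ℝ) 1) (ht : t ∈ Ioo (0 : ℝ) 1) (hst : s ≤ t) :
    ‖φ (hc r t) - φ (hc r s)‖ₑ ≤ ∫⁻ θ in Ioc (π * s) (π * t),
      ENNReal.ofReal r * dens UH φ (0 + r * Complex.exp (θ * Complex.I)) := by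
  have hpi := Real.pi_pos
  set γ : ℝ → ℂ := fun θ => 0 + r * Complex.exp (θ * Complex.I) with hγ
  have hγd : ∀ θ : ℝ, HasDerivAt γ (r * (Complex.exp (θ * Complex.I) * Complex.I)) θ := by
    intro θ
    have h1 : HasDerivAt (fun θ : ℝ => (θ : ℂ) * Complex.I) Complex.I θ := by
      simpa using (Complex.ofRealCLM.hasDerivAt (x := θ)).mul_const Complex.I
    have h2 := (h1.cexp.const_mul (r : ℂ)).const_add (0 : ℂ)
    exact h2
  have h12 : π * s ≤ π * t := by nlinarith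
  have hmem : ∀ θ ∈ Icc (π * s) (π * t), γ θ ∈ UH := by
    intro θ hθ
    have e : γ θ = hc r (θ / π) := by
      simp only [hγ, hc, zero_add]
      congr 3
      push_cast
      field_simp
    rw [e]
    apply hc_mem hr
    constructor
    · exact div_pos (lt_of_lt_of_le (mul_pos hpi hs.1) hθ.1) hpi
    · rw [div_lt_one hpi]
      nlinarith [hθ.2, ht.2]
  have e1 : φ (hc r t) = φ (γ (π * t)) := by
    simp only [hγ, hc, zero_add]
  have e2 : φ (hc r s) = φ (γ (π * s)) := by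
    simp only [hγ, hc, zero_add]
  have hdd : ∀ θ ∈ uIcc (π * s) (π * t), HasDerivAt (fun θ => φ (γ θ))
      (deriv φ (γ θ) * (r * (Complex.exp (θ * Complex.I) * Complex.I))) θ := by
    intro θ hθ
    rw [uIcc_of_le h12] at hθ
    have := (hd.differentiableAt (isOpen_UH.mem_nhds (hmem θ hθ))).hasDerivAt
    exact this.comp_of_eq θ (hγd θ) rfl
  have hγc : Continuous γ := by rw [hγ]; fun_prop
  have hcc : ContinuousOn (fun θ : ℝ => deriv φ (γ θ) *
      (r * (Complex.exp (θ * Complex.I) * Complex.I))) (uIcc (π * s) (π * t)) := by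
    apply ContinuousOn.mul
    · refine ((hd.deriv isOpen_UH).continuousOn).comp hγc.continuousOn ?_
      intro θ hθ
      rw [uIcc_of_le h12] at hθ
      exact hmem θ hθ
    · fun_prop
  have hFTC := intervalIntegral.integral_eq_sub_of_hasDerivAt hdd hcc.intervalIntegrable
  rw [e1, e2, ← hFTC, intervalIntegral.integral_of_le h12]
  refine (enorm_integral_le_lintegral_enorm _).trans ?_
  refine setLIntegral_mono' measurableSet_Ioc ?_
  intro θ hθ
  have hθU : γ θ ∈ UH := hmem θ ⟨hθ.1.le, hθ.2⟩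
  have e : dens UH φ (γ θ) = ‖deriv φ (γ θ)‖ₑ := by simp [dens, hθU]
  have e0 : dens UH φ (0 + r * Complex.exp (θ * Complex.I)) = dens UH φ (γ θ) := rfl
  rw [e0, e, enorm_mul, enorm_mul, enorm_mul, mul_comm]
  have e2 : ‖(r : ℂ)‖ₑ = ENNReal.ofReal r := by
    rw [← ofReal_norm, Complex.norm_real, Real.norm_of_nonneg hr.le]
  have e3 : ‖Complex.exp (θ * Complex.I)‖ₑ = 1 := by
    rw [← ofReal_norm, Complex.norm_exp_ofReal_mul_I, ENNReal.ofReal_one]
  have e4 : ‖Complex.I‖ₑ = 1 := by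
    rw [← ofReal_norm, Complex.norm_I, ENNReal.ofReal_one]
  rw [e2, e3, e4, mul_one, mul_one]

/-- A function on `(0,1)` with the increments bounded by the integral of an integrable function
has a limit at the left end. -/
theorem exists_lim_of_lintegral {f : ℝ → ℂ} {g : ℝ → ℝ≥0∞} (hg : ∫⁻ θ in Ioo (-π) π, g θ ≠ ∞)
    (hf : ∀ s ∈ Ioo (0 : ℝ) 1, ∀ t ∈ Ioo (0 : ℝ) 1, s ≤ t →
      ‖f t - f s‖ₑ ≤ ∫⁻ θ in Ioc (π * s) (π * t), g θ) {l : Filter ℝ} [l.NeBot]
    (hl : ∃ S : ℝ → Set ℝ, (∀ δ > 0, ∀ᶠ s in l, s ∈ S δ) ∧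
      ∀ δ > 0, δ < 1 → S δ ⊆ Ioo 0 1 ∧ ∃ x : ℝ, ∀ s ∈ S δ, x ≤ s ∧ s ≤ x + δ) :
    ∃ y, Tendsto f l (𝓝 y) := by
  have hpi := Real.pi_pos
  obtain ⟨S, hS1, hS2⟩ := hl
  have hcau : Cauchy (map f l) := by
    rw [EMetric.cauchy_iff]
    refine ⟨(inferInstance : (map f l).NeBot).ne, fun ε hε => ?_⟩
    -- absolute continuity
    obtain ⟨δ, hδ, hδ2⟩ := exists_pos_setLIntegral_lt_of_measure_lt hg (ENNReal.half_pos hε.ne').ne'
    obtain ⟨δ', hδ'0, hδ'⟩ : ∃ δ' : ℝ, 0 < δ' ∧ δ' < 1 ∧ ENNReal.ofReal (π * δ') < δ := by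
      have h1 : Tendsto (fun x : ℝ => ENNReal.ofReal (π * x)) (𝓝[>] 0) (𝓝 0) := by
        have : Tendsto (fun x : ℝ => ENNReal.ofReal (π * x)) (𝓝 0) (𝓝 (ENNReal.ofReal (π * 0))) :=
          (ENNReal.continuous_ofReal.comp (continuous_const.mul continuous_id)).tendsto 0
        simp only [mul_zero, ENNReal.ofReal_zero] at this
        exact this.mono_left nhdsWithin_le_nhds
      have h2 : ∀ᶠ x : ℝ in 𝓝[>] 0, x < 1 := nhdsWithin_le_nhds (gt_mem_nhds one_pos)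
      obtain ⟨x, hx1, hx2, hx3⟩ :=
        ((h1.eventually (gt_mem_nhds hδ)).and (h2.and self_mem_nhdsWithin)).exists
      exact ⟨x, hx3, hx2, hx1⟩
    obtain ⟨hsub, x, hx⟩ := hS2 δ' hδ'0 hδ'.1
    refine ⟨f '' S δ', image_mem_map (hS1 δ' hδ'0), ?_⟩
    have key : ∀ s ∈ S δ', ∀ t ∈ S δ', s ≤ t → edist (f s) (f t) < ε := by
      intro s hs t ht hst
      rw [edist_comm, edist_eq_enorm_sub]
      refine lt_of_le_of_lt (hf s (hsub hs) t (hsub ht) hst) ?_
      have hsubset : Ioc (π * s) (π * t) ⊆ Ioo (-π) π := by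
        intro θ hθ
        constructor
        · have := mul_pos hpi (hsub hs).1
          linarith [hθ.1]
        · have := (hsub ht).2
          nlinarith [hθ.2]
      have h3 : ∫⁻ θ in Ioc (π * s) (π * t), g θ < ε / 2 := by
        have h4 := hδ2 (Ioc (π * s) (π * t)) ?_
        · rw [Measure.restrict_restrict_of_subset hsubset] at h4
          exact h4
        · rw [Measure.restrict_apply measurableSet_Ioc, inter_eq_left.2 hsubset, Real.volume_Ioc]
          refine lt_of_le_of_lt (ENNReal.ofReal_le_ofReal ?_) hδ'.2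
          have h5 := (hx s hs).1
          have h6 := (hx t ht).2
          nlinarith
      exact h3.trans_le ENNReal.half_le_self
    rintro _ ⟨s, hs, rfl⟩ _ ⟨t, ht, rfl⟩
    rcases le_total s t with h | h
    · exact key s hs t ht h
    · rw [edist_comm]; exact key t ht s hs h
  obtain ⟨y, hy⟩ := CompleteSpace.complete hcau
  exact ⟨y, hy⟩

/-- The diameter bound passes to the closed interval. -/
theorem diam_Icc {C : ℝ → ℂ} (hCc : ContinuousOn C (Icc 0 1)) {ρ : ℝ}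
    (h1 : ∀ s ∈ Ioo (0 : ℝ) 1, ∀ t ∈ Ioo (0 : ℝ) 1, s ≤ t → dist (C s) (C t) ≤ ρ) :
    ∀ s ∈ Icc (0 : ℝ) 1, ∀ t ∈ Icc (0 : ℝ) 1, dist (C s) (C t) ≤ ρ := by
  have h2 : ∀ s ∈ Ioo (0 : ℝ) 1, ∀ t ∈ Ioo (0 : ℝ) 1, dist (C s) (C t) ≤ ρ := by
    intro s hs t ht
    rcases le_total s t with h | h
    · exact h1 s hs t ht h
    · rw [dist_comm]; exact h1 t ht s hs h
  have hcl : closure (Ioo (0 : ℝ) 1) = Icc 0 1 := closure_Ioo zero_ne_one
  have h3 : ∀ s ∈ Ioo (0 : ℝ) 1, ∀ t ∈ Icc (0 : ℝ) 1, dist (C s) (C t) ≤ ρ := by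
    intro s hs t ht
    have hne : (𝓝[Ioo (0 : ℝ) 1] t).NeBot := mem_closure_iff_nhdsWithin_neBot.1 (by rwa [hcl])
    have h4 : Tendsto (fun u => dist (C s) (C u)) (𝓝[Ioo (0 : ℝ) 1] t) (𝓝 (dist (C s) (C t))) :=
      tendsto_const_nhds.dist ((hCc t ht).mono_left (nhdsWithin_mono _ Ioo_subset_Icc_self))
    refine le_of_tendsto h4 ?_
    filter_upwards [self_mem_nhdsWithin] with u hu using h2 s hs u hu
  intro s hs t ht
  have hne : (𝓝[Ioo (0 : ℝ) 1] s).NeBot := mem_closure_iff_nhdsWithin_neBot.1 (by rwa [hcl])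
  have h4 : Tendsto (fun u => dist (C u) (C t)) (𝓝[Ioo (0 : ℝ) 1] s) (𝓝 (dist (C s) (C t))) :=
    ((hCc s hs).mono_left (nhdsWithin_mono _ Ioo_subset_Icc_self)).dist tendsto_const_nhds
  refine le_of_tendsto h4 ?_
  filter_upwards [self_mem_nhdsWithin] with u hu using h3 u hu t ht

theorem disj_image (hi : InjOn φ UH) (P Q : ℂ → Prop) (hPQ : ∀ w, P w → ¬ Q w) :
    Disjoint (φ '' {w ∈ UH | P w}) (φ '' {w ∈ UH | Q w}) := by
  rw [Set.disjoint_left]
  rintro _ ⟨w, ⟨hw, hP⟩, rfl⟩ ⟨w', ⟨hw', hQ⟩, he⟩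
  rw [hi hw' hw he] at hQ
  exact hPQ w hP hQ

theorem conn_inner {r : ℝ} : IsPreconnected {w ∈ UH | ‖w‖ < r} := by
  have : {w ∈ UH | ‖w‖ < r} = UH ∩ ball 0 r := by
    ext w; simp [mem_ball_zero_iff]
  rw [this]
  exact (convex_UH.inter (convex_ball 0 r)).isPreconnected

theorem conn_outer {r : ℝ} (hr0 : 0 < r) : IsPreconnected {w ∈ UH | r < ‖w‖} := by
  have h1 : IsPreconnected (Ioi r ×ˢ Ioo (0 : ℝ) 1) := isPreconnected_Ioi.prod isPreconnected_Ioo
  have h2 := h1.image (fun p : ℝ × ℝ => hc p.1 p.2) (by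
    apply Continuous.continuousOn
    unfold hc
    fun_prop)
  convert h2 using 1
  ext w
  constructor
  · rintro ⟨hw, hwr⟩
    have hw0 : 0 < ‖w‖ := hr0.trans hwr
    obtain ⟨t, ht, e⟩ := exists_hc hw0 hw rfl
    exact ⟨(‖w‖, t), ⟨hwr, ht⟩, e⟩
  · rintro ⟨⟨x, t⟩, ⟨hx, ht⟩, rfl⟩
    have hx' : r < x := hx
    have hx0 : 0 < x := hr0.trans hx'
    refine ⟨hc_mem hx0 ht, ?_⟩
    show r < ‖hc x t‖
    rw [norm_hc hx0]
    exact hx'

/-- The half circle with a short image gives a crosscut. -/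
theorem shortCut_of_len (hd : DifferentiableOn ℂ φ UH) (hi : InjOn φ UH) {r ρ : ℝ} (hr0 : 0 < r)
    (hρ : 0 < ρ) (hlen2 : len UH φ 0 r ≤ ENNReal.ofReal ρ) : ∃ C : ℝ → ℂ,
      (∀ t ∈ Ioo (0 : ℝ) 1, C t = φ (hc r t)) ∧
      ShortCut (φ '' UH) (φ '' {w ∈ UH | ‖w‖ < r}) (φ '' {w ∈ UH | r < ‖w‖}) C ρ := by
  have hpi := Real.pi_pos
  set g : ℝ → ℝ≥0∞ := fun θ =>
    ENNReal.ofReal r * dens UH φ (0 + r * Complex.exp (θ * Complex.I)) with hg
  have hgfin : ∫⁻ θ in Ioo (-π) π, g θ ≠ ∞ :=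
    ne_of_lt (lt_of_le_of_lt hlen2 ENNReal.ofReal_lt_top)
  set f : ℝ → ℂ := fun t => φ (hc r t) with hf
  have hfc : ContinuousOn f (Ioo 0 1) :=
    hd.continuousOn.comp (continuous_hc r).continuousOn fun t ht => hc_mem hr0 ht
  have hincr : ∀ s ∈ Ioo (0 : ℝ) 1, ∀ t ∈ Ioo (0 : ℝ) 1, s ≤ t →
      ‖f t - f s‖ₑ ≤ ∫⁻ θ in Ioc (π * s) (π * t), g θ := fun s hs t ht hst =>
    dist_hc_le hd hr0 hs ht hst
  obtain ⟨y0, hy0⟩ := exists_lim_of_lintegral (l := 𝓝[>] (0 : ℝ)) hgfin hincr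
    ⟨fun δ => Ioo 0 (min δ 1), fun δ hδ => Ioo_mem_nhdsGT (lt_min hδ one_pos),
      fun δ hδ hδ1 => ⟨fun s hs => ⟨hs.1, hs.2.trans_le (min_le_right _ _)⟩, 0, fun s hs =>
        ⟨hs.1.le, by rw [zero_add]; exact hs.2.le.trans (min_le_left _ _)⟩⟩⟩
  obtain ⟨y1, hy1⟩ := exists_lim_of_lintegral (l := 𝓝[<] (1 : ℝ)) hgfin hincr
    ⟨fun δ => Ioo (max (1 - δ) 0) 1, fun δ hδ => Ioo_mem_nhdsLT (max_lt (by linarith) one_pos),
      fun δ hδ hδ1 => ⟨fun s hs => ⟨(le_max_right _ _).trans_lt hs.1, hs.2⟩, 1 - δ, fun s hs =>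
        ⟨(le_max_left _ _).trans hs.1.le, by linarith [hs.2]⟩⟩⟩
  set C : ℝ → ℂ := extendFrom (Ioo 0 1) f with hC
  have hCc : ContinuousOn C (Icc 0 1) :=
    continuousOn_Icc_extendFrom_Ioo hfc hy0 hy1
  have hCeq : ∀ t ∈ Ioo (0 : ℝ) 1, C t = f t := fun t ht => by
    exact extendFrom_eq (subset_closure ht) (hfc t ht)
  have hC0 : C 0 = y0 := eq_lim_at_left_extendFrom_Ioo zero_lt_one hy0
  have hC1 : C 1 = y1 := eq_lim_at_right_extendFrom_Ioo zero_lt_one hy1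
  have hCimg : C '' Ioo 0 1 = φ '' {w ∈ UH | ‖w‖ = r} := by
    rw [← image_hc hr0, image_image]
    exact image_congr hCeq
  refine ⟨C, hCeq, ⟨hCc, ?_, ?_, ?_, ?_, ?_, ?_, ?_, ?_, ?_, ?_, ?_, ?_, ?_, ?_, ?_⟩⟩
  · intro s hs t ht h
    rw [hCeq s hs, hCeq t ht] at h
    exact hc_injOn hr0 hs ht (hi (hc_mem hr0 hs) (hc_mem hr0 ht) h)
  · intro t ht
    rw [hCeq t ht]
    exact ⟨_, hc_mem hr0 ht, rfl⟩
  · rw [hC0]
    refine notMem_of_tendsto hd hi (l := 𝓝[>] (0 : ℝ)) (u := hc r) ?_ ?_ hy0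
    · filter_upwards [Ioo_mem_nhdsGT (zero_lt_one (α := ℝ))] with t ht using hc_mem hr0 ht
    · have h1 : Tendsto (fun t => (hc r t).im) (𝓝 0) (𝓝 (hc r 0).im) :=
        (Complex.continuous_im.comp (continuous_hc r)).tendsto 0
      rw [hc_im, mul_zero, Real.sin_zero, mul_zero] at h1
      exact h1.mono_left nhdsWithin_le_nhds
  · rw [hC1]
    refine notMem_of_tendsto hd hi (l := 𝓝[<] (1 : ℝ)) (u := hc r) ?_ ?_ hy1
    · filter_upwards [Ioo_mem_nhdsLT (zero_lt_one (α := ℝ))] with t ht using hc_mem hr0 ht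
    · have h1 : Tendsto (fun t => (hc r t).im) (𝓝 1) (𝓝 (hc r 1).im) :=
        (Complex.continuous_im.comp (continuous_hc r)).tendsto 1
      rw [hc_im, mul_one, Real.sin_pi, mul_zero] at h1
      exact h1.mono_left nhdsWithin_le_nhds
  · refine diam_Icc hCc ?_
    intro s hs t ht hst
    rw [hCeq s hs, hCeq t ht, dist_comm, dist_eq_norm, ← ENNReal.ofReal_le_ofReal_iff hρ.le,
      ofReal_norm]
    refine (hincr s hs t ht hst).trans (le_trans ?_ hlen2)
    apply lintegral_mono_set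
    intro θ hθ
    constructor
    · have := mul_pos hpi hs.1
      linarith [hθ.1]
    · have := ht.2
      nlinarith [hθ.2]
  · exact isOpen_image_UH hd hi (sep_subset _ _)
      (isOpen_UH.inter (isOpen_lt continuous_norm continuous_const))
  · exact isOpen_image_UH hd hi (sep_subset _ _)
      (isOpen_UH.inter (isOpen_lt continuous_const continuous_norm))
  · exact conn_inner.image _ (hd.continuousOn.mono (sep_subset _ _))
  · exact (conn_outer hr0).image _ (hd.continuousOn.mono (sep_subset _ _))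
  · refine ⟨φ (hc (r / 2) (1 / 2)), _, ⟨hc_mem (by linarith) ⟨by norm_num, by norm_num⟩, ?_⟩, rfl⟩
    show ‖hc (r / 2) (1 / 2)‖ < r
    rw [norm_hc (by linarith)]
    linarith
  · refine ⟨φ (hc (2 * r) (1 / 2)), _, ⟨hc_mem (by linarith) ⟨by norm_num, by norm_num⟩, ?_⟩, rfl⟩
    show r < ‖hc (2 * r) (1 / 2)‖
    rw [norm_hc (by linarith)]
    linarith
  · exact disj_image hi _ _ fun w h1 h2 => lt_asymm h1 h2
  · rw [hCimg]
    exact disj_image hi _ _ fun w h1 h2 => (ne_of_lt h1) h2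
  · rw [hCimg]
    exact disj_image hi _ _ fun w h1 h2 => (ne_of_gt h1) h2
  · rw [hCimg, ← image_union, ← image_union]
    congr 1
    ext w
    constructor
    · intro hw
      rcases lt_trichotomy ‖w‖ r with h | h | h
      · exact Or.inl (Or.inl ⟨hw, h⟩)
      · exact Or.inr ⟨hw, h⟩
      · exact Or.inl (Or.inr ⟨hw, h⟩)
    · rintro ((h | h) | h) <;> exact h.1

/-- **Wolff's lemma for the half-plane.** -/
theorem exists_shortCut {A b ρ : ℝ} (hA : 0 ≤ A) (hb : 0 < b) (hρ : 0 < ρ) :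
    ∃ a > 0, a < b ∧ ∀ (φ : ℂ → ℂ), DifferentiableOn ℂ φ UH → InjOn φ UH →
      volume (φ '' UH) ≤ ENNReal.ofReal A → ∃ r ∈ Ioo a b, ∃ C : ℝ → ℂ,
        (∀ t ∈ Ioo (0 : ℝ) 1, C t = φ (hc r t)) ∧
        ShortCut (φ '' UH) (φ '' {w ∈ UH | ‖w‖ < r}) (φ '' {w ∈ UH | r < ‖w‖}) C ρ := by
  have hpi := Real.pi_pos
  -- choice of `a`
  set K : ℝ := ρ ^ 2 with hK
  have hKpos : 0 < K := by positivity
  set L : ℝ := (2 * π * A + 1) / K with hL
  have hLpos : 0 < L := by positivity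
  have hexp : Real.exp (-L) < 1 := by rw [Real.exp_lt_one_iff]; linarith
  have ha : 0 < b * Real.exp (-L) := by positivity
  have hab : b * Real.exp (-L) < b := by nlinarith
  refine ⟨b * Real.exp (-L), ha, hab, ?_⟩
  intro φ hd hi hvol
  have hlog : Real.log (b / (b * Real.exp (-L))) = L := by
    have : b / (b * Real.exp (-L)) = Real.exp L := by
      rw [Real.exp_neg]
      field_simp
    rw [this, Real.log_exp]
  obtain ⟨r, hr, hlen⟩ := exists_short isOpen_UH hd hi hA hvol 0 ha hab (K := K) (by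
    rw [hlog, hL]
    field_simp
    linarith)
  have hr0 : 0 < r := ha.trans hr.1
  have hlen2 : len UH φ 0 r ≤ ENNReal.ofReal ρ := by
    by_contra hcon
    push Not at hcon
    have : ENNReal.ofReal ρ ^ 2 ≤ len UH φ 0 r ^ 2 := pow_le_pow_left₀ bot_le hcon.le 2
    rw [← ENNReal.ofReal_pow hρ.le] at this
    exact absurd hlen (not_lt.2 this)
  obtain ⟨C, h1, h2⟩ := shortCut_of_len hd hi hr0 hρ hlen2
  exact ⟨r, hr, C, h1, h2⟩

end conf

end Vale.Agent.P167.S6
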