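import Vale.Agent.P167.S6.Swallow
import Vale.Agent.P153.R2.UNIQ.Inputs
import Vale.Agent.P153.R2.DET.Uni
import Vale.Agent.P153.R2.HULL.Main

/-!
# P167, SLE_6, block TIP: macroscopic travel costs capacity

From the absence of deep fjords (`FJ`), the tightness of the drivers and the absence of returns
from the target.
-/

open Set Topology Metric MeasureTheory Filter
open scoped ENNReal NNReal Real

namespace Vale.Agent.P167.S6

open Vale.Agent.P164 Vale.Agent.P153.R2.HULL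
open Vale.Agent.P153.R2.ARCX (SGen)
open Vale.Agent.P153.R2.DET (HC Uni)
open Vale.Agent.P153.R2.UNIQ (Disc)

/-- **The fjord event**: the curve `X` travels a distance `≥ e` behind a crosscut of diameter `≤ ρ`
of the domain slit by its past, which separates it from the target `b`. -/
def FJ (D : Set ℂ) (b : ℂ) (X : C(unitInterval, ℂ)) (T ρ e : ℝ) : Prop :=
  ∃ s t : unitInterval, s ≤ t ∧ (t : ℝ) < T ∧ e ≤ dist (X s) (X t) ∧
    ∃ (U V : Set ℂ) (C : ℝ → ℂ), ShortCut (D \ X '' Icc 0 s) U V C ρ ∧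
      (∀ u ∈ Ioc s t, X u ∈ U) ∧ ∃ δ > 0, ∀ z ∈ D \ X '' Icc 0 s, dist z b < δ → z ∈ V

/-- Points with an image close to `b` are far. -/
theorem far_of_near {ψ : ℂ → ℂ} {b : ℂ} (h : Uni ψ b) (R : ℝ) :
    ∃ δ > 0, ∀ w ∈ HC, dist (ψ w) b < δ → R < ‖w‖ := by
  have hcl : IsCompact (HC ∩ closedBall (0 : ℂ) R) :=
    (isCompact_closedBall (0 : ℂ) R).inter_left
      (isClosed_le continuous_const Complex.continuous_im)
  have himg : IsCompact (ψ '' (HC ∩ closedBall (0 : ℂ) R)) :=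
    hcl.image_of_continuousOn (h.cont.mono inter_subset_left)
  have hb : b ∈ (ψ '' (HC ∩ closedBall (0 : ℂ) R))ᶜ := by
    rintro ⟨w, hw, he⟩
    exact h.ne w hw.1 he
  obtain ⟨δ, hδ, hball⟩ := Metric.isOpen_iff.1 himg.isClosed.isOpen_compl b hb
  refine ⟨δ, hδ, fun w hw hd => ?_⟩
  by_contra hcon
  push Not at hcon
  exact hball (mem_ball.2 hd) ⟨w, ⟨hw, by rwa [mem_closedBall_zero_iff]⟩, rfl⟩

/-- Far points have an image close to `b`. -/
theorem near_of_far {ψ : ℂ → ℂ} {b : ℂ} (h : Uni ψ b) {r : ℝ} (hr : 0 < r) :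
    ∃ R > 0, ∀ w ∈ HC, R ≤ ‖w‖ → dist (ψ w) b < r := by
  have h1 := (Metric.tendsto_nhds.1 h.inf) r hr
  rw [eventually_inf_principal, (Metric.hasBasis_cobounded_compl_closedBall (0 : ℂ)).eventually_iff]
    at h1
  obtain ⟨R, -, hR⟩ := h1
  refine ⟨max R 0 + 1, by positivity, fun w hw hwR => ?_⟩
  refine hR ?_ hw
  rw [mem_compl_iff, mem_closedBall_zero_iff, not_le]
  have := le_max_left R 0
  linarith

/-- Small capacity and small oscillation of the driver give the fjord event. -/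
theorem fj_of_small {A ρ : ℝ} (hA : 0 ≤ A) (hρ : 0 < ρ) : ∃ ε > 0, ∀ (ψ : ℂ → ℂ) (b : ℂ)
    (X : C(unitInterval, ℂ)) (η : ℝ → ℂ) (c : ℝ → ℝ) (w : C(ℝ≥0, ℝ)) (T₀ T ε' : ℝ),
    Uni ψ b → DifferentiableOn ℂ ψ UH → volume (ψ '' UH) ≤ ENNReal.ofReal A →
    Disc ψ b X η c w T₀ T ε' → ∀ s t : unitInterval, s ≤ t → (t : ℝ) < T →
      c t - c s ≤ ε ^ 2 → (∀ u ∈ Icc (c s) (c t), |w u.toNNReal - w (c s).toNNReal| ≤ ε) →
      ∀ e : ℝ, e ≤ dist (X s) (X t) → FJ (ψ '' UH) b X T ρ e := by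
  obtain ⟨ε, hε, h⟩ := fjord_of_travel hA hρ
  refine ⟨ε, hε, ?_⟩
  intro ψ b X η c w T₀ T ε' hu hd hvol hD s t hst htT hcap hosc e he
  have hUHC : UH ⊆ HC := fun z hz => le_of_lt (show 0 < z.im from hz)
  have hWc : Continuous fun u : ℝ => w u.toNNReal := w.continuous.comp continuous_real_toNNReal
  have hs0 : (0 : ℝ) ≤ s := s.2.1
  have hst' : (s : ℝ) ≤ t := hst
  have hmem : ∀ v : unitInterval, v ≤ t → (v : ℝ) ∈ Ico 0 T := fun v hv =>
    ⟨v.2.1, lt_of_le_of_lt (show (v : ℝ) ≤ t from hv) htT⟩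
  obtain ⟨U, V, C, h1, h2, h3⟩ := h ψ hd (hu.inj.mono hUHC) hvol (fun u => w u.toNNReal) η c T hWc
    hD.sgen s t hs0 hst' htT hcap hosc
  have hcs : 0 ≤ c s := by
    have := hD.sgen.mono.monotoneOn ⟨le_rfl, hD.sgen.pos⟩ (hmem s hst) hs0
    rwa [hD.sgen.c_zero] at this
  have himg : ψ '' (UH \ η '' Icc 0 (s : ℝ)) = ψ '' UH \ X '' Icc 0 s := by
    ext z
    constructor
    · rintro ⟨x, ⟨hx, hxn⟩, rfl⟩
      refine ⟨⟨x, hx, rfl⟩, ?_⟩
      rintro ⟨v, hv, he⟩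
      have hvt : v ≤ t := hv.2.trans hst
      rw [← hD.map v (hmem v hvt).2] at he
      exact hxn ⟨v, ⟨v.2.1, hv.2⟩, hu.inj (hD.im_nonneg v (hmem v hvt)) (hUHC hx) he⟩
    · rintro ⟨⟨x, hx, rfl⟩, hn⟩
      refine ⟨x, ⟨hx, ?_⟩, rfl⟩
      rintro ⟨v, hv, rfl⟩
      have hv1 : v ≤ 1 := hv.2.trans s.2.2
      refine hn ⟨⟨v, hv.1, hv1⟩, ⟨hv.1, hv.2⟩, ?_⟩
      exact (hD.map ⟨v, hv.1, hv1⟩ (lt_of_le_of_lt (hv.2.trans hst') htT)).symm
  rw [himg] at h1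
  refine ⟨s, t, hst, htT, he, U, V, C, h1, ?_, ?_⟩
  · intro u hu'
    have hlt : (s : ℝ) < u := hu'.1
    rw [← hD.map u (hmem u hu'.2).2]
    exact h2 u ⟨hlt, hu'.2⟩
  · obtain ⟨M, hM⟩ := isCompact_Icc.exists_bound_of_continuousOn
      (hWc.continuousOn (s := Icc 0 (c s)))
    obtain ⟨δ, hδ, hfar⟩ := far_of_near hu (2 * M + 3 * √(c s) + 1)
    refine ⟨δ, hδ, ?_⟩
    rintro z ⟨⟨x, hx, rfl⟩, -⟩ hz
    exact h3 M (fun u hu' => hM u hu') x hx (hfar x (hUHC hx) hz)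

/-- A compact set of continuous functions is equicontinuous. -/
theorem modulus_of_compact {K : Set C(ℝ≥0, ℝ)} (hK : IsCompact K) (M : ℝ≥0) {ε : ℝ} (hε : 0 < ε) :
    ∃ d > 0, ∀ w ∈ K, ∀ u v : ℝ≥0, u ≤ M → v ≤ M → dist u v < d → |w u - w v| < ε := by
  have hc : IsCompact (K ×ˢ Icc (0 : ℝ≥0) M) := hK.prod isCompact_Icc
  have hcont : ContinuousOn (fun p : C(ℝ≥0, ℝ) × ℝ≥0 => p.1 p.2) (K ×ˢ Icc (0 : ℝ≥0) M) :=
    (ContinuousEval.continuous_eval).continuousOn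
  have hu := hc.uniformContinuousOn_of_continuous hcont
  have h1 := hu (Metric.dist_mem_uniformity hε)
  rw [mem_map, mem_inf_principal] at h1
  obtain ⟨U1, hU1, U2, hU2, hsub⟩ := entourageProd_subset h1
  obtain ⟨d, hd, hU2'⟩ := Metric.mem_uniformity_dist.1 hU2
  refine ⟨d, hd, fun w hw u v hu' hv' huv => ?_⟩
  have h2 : ((w, u), (w, v)) ∈ entourageProd U1 U2 := ⟨refl_mem_uniformity hU1, hU2' huv⟩
  have h3 := hsub h2 ⟨⟨hw, bot_le, hu'⟩, ⟨hw, bot_le, hv'⟩⟩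
  simpa [Real.dist_eq] using h3

/-- **TIP**: macroscopic travel away from the target costs capacity. -/
theorem tip {Ω : ℕ → Type} [∀ n, MeasurableSpace (Ω n)] (P : ∀ n, Measure (Ω n))
    (ψn : ℕ → ℂ → ℂ) (ψ : ℂ → ℂ) (bn : ℕ → ℂ) (b : ℂ) (hψ : Uni ψ b)
    (hun : TendstoUniformlyOn ψn ψ atTop HC) (hbn : Tendsto bn atTop (𝓝 b))
    (hψn : ∀ n, Uni (ψn n) (bn n)) (hdn : ∀ n, DifferentiableOn ℂ (ψn n) UH)
    (X : ∀ n, Ω n → C(unitInterval, ℂ)) (η : ∀ n, Ω n → ℝ → ℂ) (c : ∀ n, Ω n → ℝ → ℝ)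
    (w : ∀ n, Ω n → C(ℝ≥0, ℝ)) (T₀ T : ∀ n, Ω n → ℝ) (ε : ℕ → ℝ)
    (hD : ∀ n ω, Disc (ψn n) (bn n) (X n ω) (η n ω) (c n ω) (w n ω) (T₀ n ω) (T n ω) (ε n))
    (htight : ∀ q : ℝ≥0∞, 0 < q → ∃ K : Set C(ℝ≥0, ℝ), IsCompact K ∧
      ∀ᶠ n in atTop, P n {ω | w n ω ∉ K} ≤ q)
    (hend : ∀ r : ℝ, 0 < r → ∀ q : ℝ≥0∞, 0 < q → ∃ r' : ℝ, 0 < r' ∧ ∀ᶠ n in atTop,
      P n {ω | ∃ s t : unitInterval, s ≤ t ∧ dist (X n ω s) b < r' ∧ r < dist (X n ω t) b} ≤ q)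
    (hNF : ∀ e : ℝ, 0 < e → ∀ q : ℝ≥0∞, 0 < q → ∃ ρ : ℝ, 0 < ρ ∧ ∀ᶠ n in atTop,
      P n {ω | FJ (ψn n '' UH) (bn n) (X n ω) (T n ω) ρ e} ≤ q) :
    ∀ e : ℝ, 0 < e → ∀ r : ℝ, 0 < r → ∀ q : ℝ≥0∞, 0 < q → ∃ d : ℝ, 0 < d ∧ ∀ᶠ n in atTop,
      P n {ω | ∃ s t : unitInterval, s ≤ t ∧ (t : ℝ) < T n ω ∧
        (∀ u ∈ Icc s t, r ≤ dist (X n ω u) b) ∧ e ≤ dist (X n ω s) (X n ω t) ∧
        c n ω t - c n ω s < d} ≤ q := by
  intro e he r hr q hq
  have hq3 : 0 < q / 3 := ENNReal.div_pos hq.ne' (by norm_num)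
  -- the images are bounded
  obtain ⟨R0, hR0, hR0'⟩ := near_of_far hψ one_pos
  obtain ⟨B, hB⟩ := ((isCompact_closedBall (0 : ℂ) R0).inter_left
    (isClosed_le continuous_const Complex.continuous_im)).exists_bound_of_continuousOn
    (f := ψ) (s := HC ∩ closedBall (0 : ℂ) R0) (hψ.cont.mono inter_subset_left)
  have hψb : ∀ z ∈ HC, ‖ψ z‖ ≤ max B (‖b‖ + 1) := by
    intro z hz
    rcases le_total R0 ‖z‖ with h | h
    · have h1 := hR0' z hz h
      rw [dist_eq_norm] at h1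
      have h2 := norm_sub_norm_le (ψ z) b
      exact le_max_of_le_right (by linarith)
    · exact le_max_of_le_left (hB z ⟨hz, by rwa [mem_closedBall_zero_iff]⟩)
  set B' : ℝ := max B (‖b‖ + 1) + 1 with hB'
  have hB'pos : 0 < B' := by
    have := le_max_right B (‖b‖ + 1)
    have := norm_nonneg b
    rw [hB']
    linarith
  have hvolfin : volume (closedBall (0 : ℂ) B') ≠ ∞ := (isCompact_closedBall _ _).measure_lt_top.ne
  set A : ℝ := (volume (closedBall (0 : ℂ) B')).toReal with hA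
  have hA0 : 0 ≤ A := ENNReal.toReal_nonneg
  have hUHC : UH ⊆ HC := fun z hz => le_of_lt (show 0 < z.im from hz)
  have hvol : ∀ᶠ n in atTop, volume (ψn n '' UH) ≤ ENNReal.ofReal A := by
    filter_upwards [Metric.tendstoUniformlyOn_iff.1 hun 1 one_pos] with n hn
    rw [hA, ENNReal.ofReal_toReal hvolfin]
    apply measure_mono
    rintro _ ⟨z, hz, rfl⟩
    rw [mem_closedBall_zero_iff, hB']
    have h1 := hn z (hUHC hz)
    have h2 := hψb z (hUHC hz)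
    rw [dist_comm, dist_eq_norm] at h1
    have h3 := norm_sub_norm_le (ψn n z) (ψ z)
    linarith
  -- the constants
  obtain ⟨ρ, hρ, hNF'⟩ := hNF e he (q / 3) hq3
  obtain ⟨ε1, hε1, hfj⟩ := fj_of_small hA0 hρ
  obtain ⟨r1, hr1, hend'⟩ := hend (r / 2) (by positivity) (q / 3) hq3
  set r2 : ℝ := min r1 r with hr2
  have hr2pos : 0 < r2 := lt_min hr1 hr
  obtain ⟨R, hR, hRfar⟩ := near_of_far hψ (show 0 < r2 / 2 by positivity)
  obtain ⟨K, hK, htight'⟩ := htight (q / 3) hq3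
  set M : ℝ := R ^ 2 / 2 with hM
  have hM0 : 0 ≤ M := by positivity
  obtain ⟨d0, hd0, hmod⟩ := modulus_of_compact hK M.toNNReal hε1
  refine ⟨min d0 (ε1 ^ 2), lt_min hd0 (by positivity), ?_⟩
  filter_upwards [hNF', hend', htight', hvol,
    Metric.tendstoUniformlyOn_iff.1 hun (r2 / 2) (by positivity)] with n h1 h2 h3 h4 h5
  set E1 : Set (Ω n) := {ω | FJ (ψn n '' UH) (bn n) (X n ω) (T n ω) ρ e} with hE1
  set E2 : Set (Ω n) := {ω | ∃ s t : unitInterval, s ≤ t ∧ dist (X n ω s) b < r1 ∧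
    r / 2 < dist (X n ω t) b} with hE2
  set E3 : Set (Ω n) := {ω | w n ω ∉ K} with hE3
  have hsub : {ω | ∃ s t : unitInterval, s ≤ t ∧ (t : ℝ) < T n ω ∧
        (∀ u ∈ Icc s t, r ≤ dist (X n ω u) b) ∧ e ≤ dist (X n ω s) (X n ω t) ∧
        c n ω t - c n ω s < min d0 (ε1 ^ 2)} ⊆ E1 ∪ (E2 ∪ E3) := by
    rintro ω ⟨s, t, hst, htT, hfar, hdist, hcap⟩
    by_contra hcon
    rw [mem_union, mem_union, not_or, not_or] at hcon
    obtain ⟨hn1, hn2, hn3⟩ := hcon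
    have hwK : w n ω ∈ K := by
      by_contra h
      exact hn3 h
    apply hn1
    have hDn := hD n ω
    have hsg := hDn.sgen
    have hmem : ∀ v : unitInterval, v ≤ t → (v : ℝ) ∈ Ico 0 (T n ω) := fun v hv =>
      ⟨v.2.1, lt_of_le_of_lt (show (v : ℝ) ≤ t from hv) htT⟩
    have hall : ∀ v : unitInterval, v ≤ t → r2 ≤ dist (X n ω v) b := by
      intro v hv
      rcases le_total s v with h | h
      · exact (min_le_right _ _).trans (hfar v ⟨h, hv⟩)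
      · by_contra hcon
        push Not at hcon
        refine hn2 ⟨v, s, h, hcon.trans_le (min_le_left _ _), ?_⟩
        have := hfar s ⟨le_rfl, hst⟩
        linarith
    have hηR : ∀ v : unitInterval, v ≤ t → ‖η n ω v‖ < R := by
      intro v hv
      by_contra hcon
      push Not at hcon
      have hHC := hDn.im_nonneg v (hmem v hv)
      have h6 := hRfar (η n ω v) hHC hcon
      have h7 := h5 (η n ω v) hHC
      have h8 := hall v hv
      rw [← hDn.map v (hmem v hv).2] at h8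
      have h9 := dist_triangle (ψn n (η n ω v)) (ψ (η n ω v)) b
      rw [dist_comm] at h7
      linarith
    have hWc : Continuous fun u : ℝ => w n ω u.toNNReal :=
      (w n ω).continuous.comp continuous_real_toNNReal
    have hc0 : ∀ v : unitInterval, v ≤ t → 0 ≤ c n ω v := by
      intro v hv
      have := hsg.mono.monotoneOn ⟨le_rfl, hsg.pos⟩ (hmem v hv) v.2.1
      rwa [hsg.c_zero] at this
    have hcM : c n ω t ≤ M := by
      refine cap_le hWc (hc0 t le_rfl) hR ?_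
      intro z hz hzR
      rw [hsg.dom t (hmem t le_rfl)]
      refine ⟨hz, ?_⟩
      rintro ⟨v, hv, rfl⟩
      have hv1 : v ≤ 1 := hv.2.trans t.2.2
      exact absurd (hηR ⟨v, hv.1, hv1⟩ hv.2) (not_lt.2 hzR.le)
    refine hfj (ψn n) (bn n) (X n ω) (η n ω) (c n ω) (w n ω) (T₀ n ω) (T n ω) (ε n) (hψn n)
      (hdn n) h4 hDn s t hst htT ?_ ?_ e hdist
    · exact (hcap.trans_le (min_le_right _ _)).le
    · intro u hu
      have hu0 : 0 ≤ u := (hc0 s hst).trans hu.1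
      refine (hmod (w n ω) hwK u.toNNReal (c n ω s).toNNReal ?_ ?_ ?_).le
      · exact Real.toNNReal_le_toNNReal (hu.2.trans hcM)
      · exact Real.toNNReal_le_toNNReal ((hu.1.trans hu.2).trans hcM)
      · rw [NNReal.dist_eq, Real.coe_toNNReal _ hu0, Real.coe_toNNReal _ (hc0 s hst), abs_of_nonneg
          (sub_nonneg.2 hu.1)]
        have := hcap.trans_le (min_le_left _ _)
        linarith [hu.2]
  calc P n _ ≤ P n (E1 ∪ (E2 ∪ E3)) := measure_mono hsub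
    _ ≤ P n E1 + (P n E2 + P n E3) := (measure_union_le _ _).trans (by gcongr; exact measure_union_le _ _)
    _ ≤ q / 3 + (q / 3 + q / 3) := by gcongr
    _ = q := by rw [← add_assoc]; exact ENNReal.add_thirds q

end Vale.Agent.P167.S6
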