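import Vale.Agent.P167.S6.Wolff
import Vale.Agent.P153.R2.ARCX.Defs

/-!
# P167, SLE_6, block NM1 (F1): short crosscuts from small capacity

* `swallow_cut`: if between the capacity times `a ≤ b` the driver moves by at most `ε` and
  `b - a ≤ ε ^ 2`, then a crosscut of diameter at most `ρ` of `ψ (H \ K_a)` separates everything
  which is swallowed between the times `a` and `b` from the target.
* `fjord_of_travel`: the same for a simple curve: the curve on `(s,t]` is behind the crosscut.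
-/

open Set Topology Metric MeasureTheory Filter
open scoped ENNReal Real

namespace Vale.Agent.P167.S6

open Vale.Agent.P164 Vale.Agent.P153.R2.R1 Vale.Agent.P153.R2.HULL
open Vale.Agent.P153.R2.ARCX (SGen)

/-- Restart: a point alive at time `a` whose image is alive for the restarted chain is alive. -/
theorem alive_restart {W : ℝ → ℝ} {a b : ℝ} (ha : 0 ≤ a) (hab : a ≤ b) {z : ℂ}
    (hz : z ∈ loewnerDomain W a)
    (h : Zf W z a ∈ loewnerDomain (fun u => W (a + u) - W a) (b - a)) :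
    z ∈ loewnerDomain W b := by
  obtain ⟨g, hg⟩ := hz
  obtain ⟨g', hg'⟩ := h
  have e : Zf W z a = g a - (W a : ℂ) := flow_eq ha hg
  rw [e] at hg'
  have := hg.concat ha (sub_nonneg.2 hab) hg'
  rw [add_sub_cancel] at this
  exact ⟨_, this⟩

/-- Points which are swallowed between the times `a` and `b` are close to the tip at time `a`. -/
theorem swallowed_near {W : ℝ → ℝ} (hW : Continuous W) {a b ε : ℝ} (ha : 0 ≤ a) (hab : a ≤ b)
    (hε : 0 < ε) (hcap : b - a ≤ ε ^ 2) (hosc : ∀ u ∈ Icc a b, |W u - W a| ≤ ε) {z : ℂ}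
    (hz : z ∈ loewnerDomain W a) (hz' : z ∉ loewnerDomain W b) : ‖Zf W z a‖ ≤ 4 * ε := by
  by_contra hcon
  push Not at hcon
  apply hz'
  rcases hab.eq_or_lt with h | h
  · rw [← h]; exact hz
  apply alive_restart ha hab hz
  have hpos : 0 < b - a := sub_pos.2 h
  have hsq : √(b - a) ≤ ε := by
    rw [Real.sqrt_le_left hε.le]
    exact hcap
  refine (far_alive (W := fun u => W (a + u) - W a) (M := ε) (s := b - a)
    ((hW.comp (continuous_const.add continuous_id)).sub continuous_const) hpos ?_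
    (Zf_im_pos ha hz) ?_).1
  · intro u hu
    exact hosc _ ⟨by linarith [hu.1], by linarith [hu.2]⟩
  · linarith

/-- Far points have a far image. -/
theorem far_image {W : ℝ → ℝ} (hW : Continuous W) {a M : ℝ} (ha : 0 ≤ a)
    (hM : ∀ u ∈ Icc 0 a, |W u| ≤ M) {z : ℂ} (hz : 0 < z.im) {x : ℝ}
    (hfar : 2 * M + 3 * √a + x < ‖z‖) (hx : 0 ≤ x) : z ∈ loewnerDomain W a ∧ x < ‖Zf W z a‖ := by
  have hM0 : 0 ≤ M := (abs_nonneg _).trans (hM 0 ⟨le_rfl, ha⟩)
  rcases ha.eq_or_lt with h | h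
  · subst h
    rw [Real.sqrt_zero] at hfar
    refine ⟨dom_zero.2 hz, ?_⟩
    rw [Zf_zero hz]
    have h1 := norm_sub_norm_le z (W 0 : ℂ)
    rw [Complex.norm_real, Real.norm_eq_abs] at h1
    have := hM 0 ⟨le_rfl, le_rfl⟩
    linarith
  · have hq : 0 < √a := Real.sqrt_pos.2 h
    obtain ⟨h1, h2⟩ := far_alive hW h hM hz (by linarith)
    refine ⟨h1, ?_⟩
    have h3 := norm_Zf_ge (z := z) hM ⟨h.le, le_rfl⟩
    have h4 := h2 a ⟨h.le, le_rfl⟩
    have h5 := norm_sub_norm_le z (gf W z a)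
    rw [norm_sub_rev] at h5
    linarith

/-- **Short crosscuts from small capacity.** -/
theorem swallow_cut {A ρ : ℝ} (hA : 0 ≤ A) (hρ : 0 < ρ) : ∃ ε > 0, ∀ (ψ : ℂ → ℂ),
    DifferentiableOn ℂ ψ UH → InjOn ψ UH → volume (ψ '' UH) ≤ ENNReal.ofReal A →
    ∀ (W : ℝ → ℝ), Continuous W → ∀ a b : ℝ, 0 ≤ a → a ≤ b → b - a ≤ ε ^ 2 →
      (∀ u ∈ Icc a b, |W u - W a| ≤ ε) → ∃ (U V : Set ℂ) (C : ℝ → ℂ),
        ShortCut (ψ '' loewnerDomain W a) U V C ρ ∧
        (∀ z ∈ loewnerDomain W a, z ∉ loewnerDomain W b → ψ z ∈ U) ∧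
        (∀ z ∈ loewnerDomain W a, 1 ≤ ‖Zf W z a‖ → ψ z ∈ V) := by
  obtain ⟨r0, hr0, hr1, h⟩ := exists_shortCut hA one_pos hρ
  refine ⟨r0 / 4, by positivity, ?_⟩
  intro ψ hd hi hvol W hW a b ha hab hcap hosc
  set φ : ℂ → ℂ := fun w => ψ (invflow W a w) with hφ
  have hmaps : ∀ w ∈ UH, invflow W a w ∈ loewnerDomain W a := fun w hw =>
    invflow_mem ha hW.continuousOn hw
  have hmapsU : ∀ w ∈ UH, invflow W a w ∈ UH := fun w hw => dom_subset_UH ha (hmaps w hw)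
  have hφd : DifferentiableOn ℂ φ UH := by
    intro w hw
    have h1 := hasDerivAt_invflow ha hW.continuousOn hw
    have h2 := hd.differentiableAt (isOpen_UH.mem_nhds (hmapsU w hw))
    exact (h2.comp w h1.differentiableAt).differentiableWithinAt
  have hφi : InjOn φ UH := by
    intro w hw w' hw' he
    have h1 := hi (hmapsU w hw) (hmapsU w' hw') he
    have h2 := congrArg (flow W a) h1
    rwa [flow_invflow ha hW.continuousOn hw, flow_invflow ha hW.continuousOn hw'] at h2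
  have himg : φ '' UH = ψ '' loewnerDomain W a := by
    rw [dom_eq_image hW ha, image_image]
  have hvol' : volume (φ '' UH) ≤ ENNReal.ofReal A := by
    rw [himg]
    exact (measure_mono (image_mono (dom_subset_UH ha))).trans hvol
  obtain ⟨r, hr, C, hC, hcut⟩ := h φ hφd hφi hvol'
  rw [himg] at hcut
  refine ⟨_, _, C, hcut, ?_, ?_⟩
  · intro z hz hz'
    have h1 := swallowed_near hW ha hab (by positivity) hcap hosc hz hz'
    refine ⟨Zf W z a, ⟨Zf_im_pos ha hz, ?_⟩, ?_⟩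
    · show ‖Zf W z a‖ < r
      linarith [hr.1]
    · show ψ (invflow W a (Zf W z a)) = ψ z
      congr 1
      exact invflow_flow ha hW.continuousOn hz
  · intro z hz h1
    refine ⟨Zf W z a, ⟨Zf_im_pos ha hz, ?_⟩, ?_⟩
    · show r < ‖Zf W z a‖
      linarith [hr.2]
    · show ψ (invflow W a (Zf W z a)) = ψ z
      congr 1
      exact invflow_flow ha hW.continuousOn hz

/-- **A simple curve which moves with a small cost of capacity is behind a short crosscut.** -/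
theorem fjord_of_travel {A ρ : ℝ} (hA : 0 ≤ A) (hρ : 0 < ρ) : ∃ ε > 0, ∀ (ψ : ℂ → ℂ),
    DifferentiableOn ℂ ψ UH → InjOn ψ UH → volume (ψ '' UH) ≤ ENNReal.ofReal A →
    ∀ (W : ℝ → ℝ) (η : ℝ → ℂ) (c : ℝ → ℝ) (T : ℝ), Continuous W → SGen W η c T →
    ∀ s t : ℝ, 0 ≤ s → s ≤ t → t < T → c t - c s ≤ ε ^ 2 →
      (∀ u ∈ Icc (c s) (c t), |W u - W (c s)| ≤ ε) → ∃ (U V : Set ℂ) (C : ℝ → ℂ),
        ShortCut (ψ '' (UH \ η '' Icc 0 s)) U V C ρ ∧
        (∀ u ∈ Ioc s t, ψ (η u) ∈ U) ∧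
        (∀ M : ℝ, (∀ u ∈ Icc 0 (c s), |W u| ≤ M) → ∀ z : ℂ, 0 < z.im →
          2 * M + 3 * √(c s) + 1 < ‖z‖ → ψ z ∈ V) := by
  obtain ⟨ε, hε, h⟩ := swallow_cut hA hρ
  refine ⟨ε, hε, ?_⟩
  intro ψ hd hi hvol W η c T hW hg s t hs hst ht hcap hosc
  have hsT : s ∈ Ico 0 T := ⟨hs, hst.trans_lt ht⟩
  have htT : t ∈ Ico 0 T := ⟨hs.trans hst, ht⟩
  have hcs : 0 ≤ c s := by
    have := hg.mono.monotoneOn ⟨le_rfl, hg.pos⟩ hsT hs
    rwa [hg.c_zero] at this
  have hcst : c s ≤ c t := hg.mono.monotoneOn hsT htT hst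
  obtain ⟨U, V, C, h1, h2, h3⟩ := h ψ hd hi hvol W hW (c s) (c t) hcs hcst hcap hosc
  have hdom : loewnerDomain W (c s) = UH \ η '' Icc 0 s := hg.dom s hsT
  rw [hdom] at h1
  refine ⟨U, V, C, h1, ?_, ?_⟩
  · intro u hu
    have huT : u ∈ Ico 0 T := ⟨hs.trans hu.1.le, hu.2.trans_lt ht⟩
    apply h2
    · rw [hdom]
      refine ⟨hg.im_pos u ⟨hs.trans_lt hu.1, huT.2⟩, ?_⟩
      rintro ⟨v, hv, he⟩
      have := hg.inj ⟨hv.1, hv.2.trans_lt hsT.2⟩ huT he
      rw [this] at hv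
      exact absurd hu.1 (not_lt.2 hv.2)
    · rw [hg.dom t htT]
      rintro ⟨-, hn⟩
      exact hn ⟨u, ⟨huT.1, hu.2⟩, rfl⟩
  · intro M hM z hz hfar
    obtain ⟨h4, h5⟩ := far_image hW hcs hM hz hfar zero_le_one
    exact h3 z h4 h5.le

end Vale.Agent.P167.S6
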