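import Vale.Agent.P153.R2.HULL.Main

/-!
# P167, SLE_6, block TRU: the trace is determined by the driver

* `trace_unique`: two continuous curves which generate the same Loewner chain coincide.
* `trace_of_gen`: a curve which generates the chain up to a continuous monotone time change `c`,
  and which is constant on the level sets of `c`, is `γ ∘ c` for a continuous trace `γ`.
-/

open Set Filter Topology Metric

namespace Vale.Agent.P167.S6

open Vale.Agent.P164 Vale.Agent.P153.R2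
open Vale.Agent.P153.R2.HULL
open Vale.Agent.P153.R2.ARCX (Gen)

/-- A frontier point of the unbounded component which belongs to the open set is impossible. -/
theorem mem_unbComp_of_close {S : Set ℂ} (hS : IsOpen S) {p : ℂ} (hp : p ∈ S)
    (hcl : p ∈ closure (unbComp S)) : p ∈ unbComp S := by
  obtain ⟨ε, hε, hball⟩ := Metric.isOpen_iff.1 hS p hp
  obtain ⟨w, hw, hwp⟩ := Metric.mem_closure_iff.1 hcl ε hε
  have hwb : w ∈ ball p ε := by rw [mem_ball, dist_comm]; exact hwp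
  have hsub : ball p ε ⊆ connectedComponentIn S p :=
    (convex_ball p ε).isPreconnected.subset_connectedComponentIn (mem_ball_self hε) hball
  have heq : connectedComponentIn S p = connectedComponentIn S w :=
    connectedComponentIn_eq (hsub hwb)
  refine ⟨hp, ?_⟩
  rw [heq]
  exact hw.2

/-- If `U_t` is the unbounded component of the complement of `γ [0,t]`, then the frontier points of
`U_t` in `U_s` are on `γ [s,t]`. -/
theorem frontier_sub {A B : Set ℂ} (hA : IsClosed A) {p : ℂ} (hp : p ∈ unbComp (UH \ B))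
    (hpn : p ∉ unbComp (UH \ A)) (hcl : p ∈ closure (unbComp (UH \ A))) : p ∈ A \ B := by
  refine ⟨?_, hp.1.2⟩
  by_contra hpA
  exact hpn (mem_unbComp_of_close (isOpen_UH.sdiff hA) ⟨hp.1.1, hpA⟩ hcl)

theorem exists_frontier {U V : Set ℂ} (hU : IsPreconnected U) (hV : IsOpen V) (hVne : V.Nonempty)
    (hVU : V ⊆ U) (hne : ¬ U ⊆ V) : ∃ p ∈ U, p ∉ V ∧ p ∈ closure V := by
  by_contra hcon
  push Not at hcon
  apply hne
  -- V and the complement of its closure cover U
  have hcov : U ⊆ V ∪ (closure V)ᶜ := by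
    intro p hp
    by_cases h : p ∈ V
    · exact Or.inl h
    · exact Or.inr fun hc => hcon p hp h hc
  intro x hx
  by_contra hxV
  have hx2 : x ∈ (closure V)ᶜ := (hcov hx).resolve_left hxV
  obtain ⟨v, hv⟩ := hVne
  obtain ⟨z, -, hz1, hz2⟩ := hU V (closure V)ᶜ hV isClosed_closure.isOpen_compl hcov
    ⟨v, hVU hv, hv⟩ ⟨x, hx, hx2⟩
  exact hz2 (subset_closure hz1)

/-- Two curves which generate the same chain coincide (local form). -/
theorem gen_unique {W : ℝ → ℝ} (hW : Continuous W) {γ γ' : ℝ → ℂ} {T : ℝ}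
    (hγ : ContinuousOn γ (Ico 0 T)) (hγ' : ContinuousOn γ' (Ico 0 T))
    (h0 : γ 0 = γ' 0)
    (hd : ∀ t ∈ Ico 0 T, loewnerDomain W t = unbComp (UH \ γ '' Icc 0 t))
    (hd' : ∀ t ∈ Ico 0 T, loewnerDomain W t = unbComp (UH \ γ' '' Icc 0 t)) :
    ∀ t ∈ Ico 0 T, γ t = γ' t := by
  intro t ht
  rcases ht.1.eq_or_lt with h | htpos
  · rw [← h]; exact h0
  by_contra hne
  set r := dist (γ t) (γ' t) / 2 with hr
  have hrpos : 0 < r := by rw [hr]; exact half_pos (dist_pos.2 hne)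
  have key : ∀ g : ℝ → ℂ, ContinuousOn g (Ico 0 T) →
      ∃ δ > 0, ∀ u ∈ Ico 0 T, |u - t| < δ → dist (g u) (g t) < r := by
    intro g hg
    obtain ⟨δ, hδ, h⟩ := Metric.continuousOn_iff.1 hg t ht r hrpos
    exact ⟨δ, hδ, fun u hu hut => h u hu (by rwa [Real.dist_eq])⟩
  obtain ⟨δ, hδ, h1⟩ := key γ hγ
  obtain ⟨δ', hδ', h2⟩ := key γ' hγ'
  set s : ℝ := max 0 (t - min δ δ' / 2) with hs
  have hs0 : 0 ≤ s := le_max_left _ _
  have hm : 0 < min δ δ' := lt_min hδ hδ'
  have hst : s < t := max_lt htpos (by linarith)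
  have hsT : s ∈ Ico 0 T := ⟨hs0, hst.trans ht.2⟩
  have hsd : ∀ u ∈ Icc s t, |u - t| < min δ δ' := by
    intro u hu
    have : t - min δ δ' / 2 ≤ u := (le_max_right _ _).trans hu.1
    rw [abs_sub_lt_iff]
    constructor <;> linarith [hu.2]
  -- the two domains
  obtain ⟨z, hz1, hz2⟩ := dom_strict hW hs0 hst
  have hopen : IsOpen (unbComp (UH \ γ '' Icc 0 t)) := by
    rw [← hd t ht]
    exact isOpen_domain ht.1 hW.continuousOn
  have hVU : loewnerDomain W t ⊆ loewnerDomain W s := loewnerDomain_anti W hst.le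
  have hVne : (loewnerDomain W t).Nonempty := by
    by_contra hcon
    rw [not_nonempty_iff_eq_empty] at hcon
    exact not_bounded_dom hW (t := t) (by rw [hcon]; exact Bornology.isBounded_empty)
  obtain ⟨p, hpU, hpV, hpc⟩ := exists_frontier (isPreconnected_dom hW hs0)
    (by rw [hd t ht]; exact hopen) hVne hVU (fun hsub => hz2 (hsub hz1))
  have hloc : ∀ g : ℝ → ℂ, ContinuousOn g (Ico 0 T) →
      (∀ t ∈ Ico 0 T, loewnerDomain W t = unbComp (UH \ g '' Icc 0 t)) →
      (∀ u ∈ Ico 0 T, |u - t| < min δ δ' → dist (g u) (g t) < r) → dist p (g t) < r := by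
    intro g hg hgd hgr
    have hcomp : IsClosed (g '' Icc 0 t) :=
      (isCompact_Icc.image_of_continuousOn (hg.mono fun u hu =>
        ⟨hu.1, hu.2.trans_lt ht.2⟩)).isClosed
    have := frontier_sub (p := p) (B := g '' Icc 0 s) hcomp (by rw [← hgd s hsT]; exact hpU)
      (by rw [← hgd t ht]; exact hpV) (by rw [← hgd t ht]; exact hpc)
    obtain ⟨⟨u, hu, rfl⟩, hnot⟩ := this
    have hsu : s < u := by
      by_contra hcon
      exact hnot ⟨u, ⟨hu.1, not_lt.1 hcon⟩, rfl⟩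
    exact hgr u ⟨hu.1, hu.2.trans_lt ht.2⟩ (hsd u ⟨hsu.le, hu.2⟩)
  have e1 := hloc γ hγ hd fun u hu hut => h1 u hu (hut.trans_le (min_le_left _ _))
  have e2 := hloc γ' hγ' hd' fun u hu hut => h2 u hu (hut.trans_le (min_le_right _ _))
  have e3 := dist_triangle_left (γ t) (γ' t) p
  have : dist (γ t) (γ' t) = 2 * r := by rw [hr]; ring
  linarith

/-- **The trace is determined by the driver.** -/
theorem trace_unique {W : ℝ → ℝ} (hW : Continuous W) {γ γ' : ℝ → ℂ} (h : IsTrace W γ)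
    (h' : IsTrace W γ') : ∀ t : ℝ, 0 ≤ t → γ t = γ' t := by
  intro t ht
  refine gen_unique hW (T := t + 1) (h.cont.mono fun u hu => hu.1)
    (h'.cont.mono fun u hu => hu.1) (h.start.trans h'.start.symm)
    (fun u hu => h.domain_eq u hu.1) (fun u hu => h'.domain_eq u hu.1) t ⟨ht, by linarith⟩

/-- **A curve without motion inside its hull is a trace.** -/
theorem trace_of_gen {W : ℝ → ℝ} {η : ℝ → ℂ} {c : ℝ → ℝ} {T : ℝ} (h : Gen W η c T)
    (htop : ∀ M : ℝ, ∃ t ∈ Ico 0 T, M ≤ c t)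
    (hconst : ∀ s ∈ Ico 0 T, ∀ t ∈ Ico 0 T, s ≤ t → c s = c t → η s = η t) :
    ∃ γ : ℝ → ℂ, IsTrace W γ ∧ ∀ t ∈ Ico 0 T, η t = γ (c t) := by
  -- surjectivity of `c`
  have hsurj : ∀ x : ℝ, 0 ≤ x → ∃ t ∈ Ico 0 T, c t = x := by
    intro x hx
    obtain ⟨t, ht, hxt⟩ := htop x
    have hcont : ContinuousOn c (Icc 0 t) := h.contc.mono fun u hu => ⟨hu.1, hu.2.trans_lt ht.2⟩
    have := intermediate_value_Icc ht.1 hcont
    obtain ⟨u, hu, hux⟩ := this ⟨by rw [h.c_zero]; exact hx, hxt⟩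
    exact ⟨u, ⟨hu.1, hu.2.trans_lt ht.2⟩, hux⟩
  have hconst' : ∀ s ∈ Ico 0 T, ∀ t ∈ Ico 0 T, c s = c t → η s = η t := by
    intro s hs t ht hst
    rcases le_total s t with h1 | h1
    · exact hconst s hs t ht h1 hst
    · exact (hconst t ht s hs h1 hst.symm).symm
  choose! τ hτ hcτ using hsurj
  have hcpos : ∀ t ∈ Ico 0 T, 0 ≤ c t := fun t ht => by
    have := h.mono ⟨le_rfl, h.pos⟩ ht ht.1
    rwa [h.c_zero] at this
  have hfac : ∀ t ∈ Ico 0 T, η t = η (τ (c t)) := fun t ht =>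
    hconst' t ht _ (hτ _ (hcpos t ht)) (hcτ _ (hcpos t ht)).symm
  refine ⟨fun x => η (τ x), ⟨?_, ?_, ?_, ?_⟩, hfac⟩
  · -- continuity
    intro x hx
    have hx : 0 ≤ x := hx
    rw [ContinuousWithinAt, tendsto_iff_seq_tendsto]
    intro u hu
    have hu1 : Tendsto u atTop (𝓝 x) := hu.mono_right nhdsWithin_le_nhds
    have hu2 : ∀ᶠ n in atTop, 0 ≤ u n := hu.eventually self_mem_nhdsWithin
    -- a bound
    obtain ⟨t1, ht1, hct1⟩ := htop (x + 1)
    have hev : ∀ᶠ n in atTop, τ (u n) ∈ Icc 0 t1 := by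
      filter_upwards [hu2, hu1.eventually (gt_mem_nhds (show x < x + 1 by linarith))] with n h1 h2
      refine ⟨(hτ _ h1).1, ?_⟩
      by_contra hcon
      push Not at hcon
      have := h.mono ht1 (hτ _ h1) hcon.le
      rw [hcτ _ h1] at this
      linarith
    apply tendsto_of_subseq_tendsto
    intro ns hns
    have hev' : ∀ᶠ n in atTop, τ (u (ns n)) ∈ Icc 0 t1 := hns.eventually hev
    have hu1' : Tendsto (fun n => u (ns n)) atTop (𝓝 x) := hu1.comp hns
    have hu2' : ∀ᶠ n in atTop, 0 ≤ u (ns n) := hns.eventually hu2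
    obtain ⟨N, hN⟩ := eventually_atTop.1 hev'
    obtain ⟨a, ha, φ, hφ, hlim⟩ := isCompact_Icc.tendsto_subseq (x := fun n => τ (u (ns (n + N))))
      fun n => hN _ (by omega)
    refine ⟨fun n => φ n + N, ?_⟩
    have haT : a ∈ Ico 0 T := ⟨ha.1, ha.2.trans_lt ht1.2⟩
    have hφN : Tendsto (fun n => φ n + N) atTop atTop :=
      tendsto_atTop_mono (fun n => Nat.le_add_right _ _) hφ.tendsto_atTop
    have hmem : ∀ᶠ n in atTop, τ (u (ns (φ n + N))) ∈ Ico 0 T := by
      filter_upwards [hφN.eventually hev'] with n hn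
      exact ⟨hn.1, hn.2.trans_lt ht1.2⟩
    have hlim2 : Tendsto (fun n => τ (u (ns (φ n + N)))) atTop (𝓝[Ico 0 T] a) :=
      tendsto_nhdsWithin_iff.2 ⟨hlim, hmem⟩
    have hη : Tendsto (fun n => η (τ (u (ns (φ n + N))))) atTop (𝓝 (η a)) :=
      (h.cont a haT).tendsto.comp hlim2
    have hc : Tendsto (fun n => c (τ (u (ns (φ n + N))))) atTop (𝓝 (c a)) :=
      (h.contc a haT).tendsto.comp hlim2
    have hc2 : Tendsto (fun n => c (τ (u (ns (φ n + N))))) atTop (𝓝 x) := by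
      refine (hu1'.comp hφN).congr' ?_
      filter_upwards [hφN.eventually hu2'] with n hn
      exact (hcτ _ hn).symm
    have hca : c a = x := tendsto_nhds_unique hc hc2
    have hηa : η a = η (τ x) := by rw [hfac a haT, hca]
    rw [← hηa]
    exact hη
  · show η (τ 0) = _
    have : η (τ 0) = η 0 := by
      refine hconst' _ (hτ 0 le_rfl) 0 ⟨le_rfl, h.pos⟩ ?_
      rw [hcτ 0 le_rfl, h.c_zero]
    rw [this]
    exact h.start
  · intro x hx
    exact h.im_nonneg _ (hτ x hx)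
  · intro x hx
    have e := h.dom (τ x) (hτ x hx)
    rw [hcτ x hx] at e
    have e2 : η '' Icc 0 (τ x) = (fun x => η (τ x)) '' Icc 0 x := by
      ext z
      constructor
      · rintro ⟨u, hu, rfl⟩
        have huT : u ∈ Ico 0 T := ⟨hu.1, hu.2.trans_lt (hτ x hx).2⟩
        refine ⟨c u, ⟨hcpos u huT, ?_⟩, (hfac u huT).symm⟩
        rw [← hcτ x hx]
        exact h.mono huT (hτ x hx) hu.2
      · rintro ⟨y, hy, rfl⟩
        rcases le_total (τ y) (τ x) with h1 | h1
        · exact ⟨τ y, ⟨(hτ y hy.1).1, h1⟩, rfl⟩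
        · refine ⟨τ x, ⟨(hτ x hx).1, le_rfl⟩, ?_⟩
          refine hconst' _ (hτ x hx) _ (hτ y hy.1) ?_
          refine le_antisymm (h.mono (hτ x hx) (hτ y hy.1) h1) ?_
          rw [hcτ x hx, hcτ y hy.1]
          exact hy.2
    rw [e, e2]
    rfl

end Vale.Agent.P167.S6
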